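import Claimed.Agent.R322.Sx.Env.B

/-!
# R322 / Sx / Env / C4 : `env_reg`, `env_lip`   [leaf L-Sx-EnvC4]

PLAN `env_reg`.  `δ := I(s)/s² ∈ [e^{-T/2}, d_*]`, `K1 := max 1 C`: `P.Ctl K1 (K - 2) s δ` (`dil`: divide the hypothesis by `v²`:
`τ_v ≤ C (v/s)^{K-2} δ`).  `ctl_poly` (`j = 1`): `P.pm s ≤ C1 δ`.  Then `h.abs_Adot_le`, `h.abs_fst_le` (`τ_s ≤ pm s`: `h.tau_le_pm`; `d = e^{-T} ≤ e^{-T/2} ≤ δ`),
`h.abs_fstDot_le`, `Zdot = s² fst`, `Zddot = 2 Zdot + s² fstDot`, `s² δ = I(s)`.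

PLAN `env_lip`.  Put `ℓ = log (s'/s)`.  (a) `I(s') ≤ e^{Kℓ} I(s)` (`I_mono`).  (b) lower bound, SHORT steps `ℓ ≤ ℓ0 := min 1 (1/(4 C e^K))`: by `I_cases` at `s`:
`I(s) = Iend(s)`: `I(s') ≥ Iend(s') = e^{Kℓ} Iend(s) ≥ I(s)`;  `I(s) = (s/v)^K A(v)`, `v ≥ s'`: `I(s') ≥ (s'/v)^K A(v) = e^{Kℓ} I(s) ≥ I(s)` (`I_ge_future`);
`v ∈ [s, s']`: `I(s') ≥ A(s') ≥ A(v) - C sup_{[v,s']} I · ℓ ≥ I(s) (1 - C e^K ℓ)` (mean value inequality for `A` in `log`, `A' = Adot/r`, `|Adot| ≤ C I(r) ≤ C e^{K} I(s)`, `A(v) = (v/s)^K I(s) ≥ I(s)`).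
So `|log I(s') - log I(s)| ≤ C3 ℓ` on short steps (`log (1 - x) ≥ - 2x` for `x ≤ 1/2`), hence on all steps (additivity: cut `[s, s']` in `N` equal steps in `log`).
`a = 2 log s - log I`.  (c) `Zdot/I`: on short steps `|Zdot(s') - Zdot(s)| ≤ C e^K I(s) ℓ`, `|Zdot(s)| ≤ C I(s)`, `|1/I(s') - 1/I(s)| ≤ C4 ℓ / I(s)`; chain as before
(or: for `ℓ ≥ ℓ0` use `|Zdot/I| ≤ C`, so the difference is `≤ 2C ≤ (2C/ℓ0) ℓ`).
-/

set_option autoImplicit false

namespace Claimed.Agent.R322.Sx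

open MeasureTheory Set Metric
open scoped ENNReal NNReal InnerProductSpace

variable {m n Q : ℕ}

/-- arithmetic of `env_reg`. -/
theorem env_reg_aux {s2 δ pm τ d Ad f fd a b c C1 : ℝ} (hs2 : 0 ≤ s2) (ha : 0 ≤ a) (hb : 0 ≤ b)
    (hc : 0 ≤ c) (hpm : pm ≤ C1 * δ) (hτ : τ ≤ pm) (hd : d ≤ δ)
    (h1 : |Ad| ≤ a * (s2 * pm)) (h2 : |f| ≤ b * τ + d) (h3 : |fd| ≤ b * (c * pm)) :
    |Ad| + |s2 * f| + |2 * (s2 * f) + s2 * fd|
      ≤ (a * C1 + 3 * (b * C1 + 1) + b * (c * C1)) * (s2 * δ) := by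
  have e1 : |Ad| ≤ a * (s2 * (C1 * δ)) :=
    h1.trans (mul_le_mul_of_nonneg_left (mul_le_mul_of_nonneg_left hpm hs2) ha)
  have e2 : |s2 * f| ≤ s2 * (b * (C1 * δ) + δ) := by
    rw [abs_mul, abs_of_nonneg hs2]
    apply mul_le_mul_of_nonneg_left _ hs2
    have := mul_le_mul_of_nonneg_left (hτ.trans hpm) hb
    linarith
  have e3 : |s2 * fd| ≤ s2 * (b * (c * (C1 * δ))) := by
    rw [abs_mul, abs_of_nonneg hs2]
    apply mul_le_mul_of_nonneg_left _ hs2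
    exact h3.trans (mul_le_mul_of_nonneg_left (mul_le_mul_of_nonneg_left hpm hc) hb)
  have e4 : |2 * (s2 * f) + s2 * fd| ≤ 2 * |s2 * f| + |s2 * fd| := by
    refine (abs_add_le _ _).trans ?_
    rw [abs_mul 2, abs_of_nonneg (by norm_num : (0 : ℝ) ≤ 2)]
  have e5 : (a * C1 + 3 * (b * C1 + 1) + b * (c * C1)) * (s2 * δ)
      = a * (s2 * (C1 * δ)) + 3 * (s2 * (b * (C1 * δ) + δ)) + s2 * (b * (c * (C1 * δ))) := by ring
  rw [e5]
  linarith

/-- Step 5: regularity AE (5.7) at a scale where the dilation bound holds. -/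
theorem env_reg (m n Q : ℕ) (hm : 1 ≤ m) (hQ : 1 ≤ Q) (κ Cg K CQ C : ℝ)
    (hK : 2 * (m : ℝ) + 100 < K) :
    ∃ C' T0 : ℝ, 0 < C' ∧ ∀ P : PD m n Q, P.K = K → P.CQ = CQ → P.Ok κ Cg → T0 ≤ P.T →
      ∀ s, P.sb ≤ s → s * P.T ^ 4 ≤ P.ρ → s ^ 2 * Real.exp (-P.T / 2) ≤ P.I s →
      P.I s ≤ s ^ 2 * P.dst →
      (∀ v, s ≤ v → v ≤ P.ρ → v ^ 2 * P.tau v ≤ C * (v / s) ^ K * P.I s) →
      |P.Adot s| + |P.Zdot s| + |P.Zddot s| ≤ C' * P.I s := by
  have hm0 : (0 : ℝ) ≤ m := Nat.cast_nonneg m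
  have hJ : 0 ≤ K - 2 := by linarith
  obtain ⟨C1, T1, hC1, h1⟩ := ctl_poly m n Q hm hQ κ Cg (max 1 C) (K - 2) (le_max_left _ _) hJ 1
  refine ⟨((m : ℝ) + 3) * C1 + 3 * ((3 + |CQ|) * C1 + 1) + (3 + |CQ|) * (((m : ℝ) + 1) * C1),
    max T1 0, by positivity, fun P hPK hPC h hT s hsb hroom hge hle hdil => ?_⟩
  have t1 : T1 ≤ P.T := (le_max_left _ _).trans hT
  have t0 : 0 ≤ P.T := (le_max_right _ _).trans hT
  have hs : 0 < s := lt_of_lt_of_le h.sb_pos hsb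
  have hs2 : 0 < s ^ 2 := by positivity
  have hI := P.I_pos h hs
  obtain ⟨δ, hδ⟩ : ∃ δ : ℝ, δ = P.I s / s ^ 2 := ⟨_, rfl⟩
  have hδI : s ^ 2 * δ = P.I s := by
    rw [hδ]
    field_simp
  have hδ0 : 0 < δ := by rw [hδ]; positivity
  have hδge : Real.exp (-P.T / 2) ≤ δ := by
    rw [hδ, le_div_iff₀ hs2]
    linarith
  have hctl : P.Ctl (max 1 C) (K - 2) s δ := by
    refine ⟨hs, hroom, fun t ht htρ => ?_, ?_, hδge⟩
    · have ht0 : 0 < t := lt_of_lt_of_le hs ht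
      have h2 := hdil t ht htρ
      rw [← hδI] at h2
      have hx : 0 < t / s := div_pos ht0 hs
      have e : (t / s) ^ (K - 2) = (t / s) ^ K / (t / s) ^ 2 := by
        rw [Real.rpow_sub hx, Real.rpow_two]
      have hp : 0 ≤ (t / s) ^ (K - 2) * δ := mul_nonneg (Real.rpow_nonneg hx.le _) hδ0.le
      have h3 : P.tau t ≤ C * ((t / s) ^ (K - 2) * δ) := by
        rw [e]
        have h4 : C * ((t / s) ^ K / (t / s) ^ 2 * δ) = (C * (t / s) ^ K * (s ^ 2 * δ)) / t ^ 2 := by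
          field_simp
        rw [h4, le_div_iff₀ (by positivity)]
        linarith
      calc P.tau t ≤ C * ((t / s) ^ (K - 2) * δ) := h3
        _ ≤ max 1 C * ((t / s) ^ (K - 2) * δ) := mul_le_mul_of_nonneg_right (le_max_right _ _) hp
        _ = _ := by ring
    · have h2 : δ ≤ P.dst := by
        rw [hδ, div_le_iff₀ hs2]
        linarith
      exact h2.trans (le_mul_of_one_le_left P.dst_pos.le (le_max_left _ _))
  have a1 := h1 P h t1 s δ hctl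
  simp only [pow_one] at a1
  have a2 : P.pm s ≤ C1 * δ := a1
  have hd : P.d ≤ δ := by
    refine le_trans ?_ hδge
    unfold PD.d
    exact Real.exp_le_exp.2 (by linarith)
  have a3 := P.abs_Adot_le h s
  have a4 := P.abs_fst_le h s
  have a5 := P.abs_fstDot_le h s
  rw [hPC] at a4 a5
  have key := env_reg_aux hs2.le (by linarith : (0 : ℝ) ≤ (m : ℝ) + 3)
    (by positivity : (0 : ℝ) ≤ 3 + |CQ|) (by linarith : (0 : ℝ) ≤ (m : ℝ) + 1) a2 (P.tau_le_pm h s) hd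
    a3 a4 a5
  rw [hδI] at key
  exact key

/-- a Lipschitz bound in `log s` on short steps holds on all steps. -/
theorem env_chain {f : ℝ → ℝ} {σ σ' ℓ0 M : ℝ} (hσ : 0 < σ) (hℓ : 0 < ℓ0)
    (hshort : ∀ s ∈ Icc σ σ', ∀ s' ∈ Icc σ σ', s ≤ s' → Real.log (s' / s) ≤ ℓ0 →
      |f s' - f s| ≤ M * Real.log (s' / s)) :
    ∀ s ∈ Icc σ σ', ∀ s' ∈ Icc σ σ', s ≤ s' → |f s' - f s| ≤ M * Real.log (s' / s) := by
  have key : ∀ N : ℕ, ∀ s ∈ Icc σ σ', ∀ s' ∈ Icc σ σ', s ≤ s' →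
      Real.log (s' / s) ≤ ((N : ℝ) + 1) * ℓ0 → |f s' - f s| ≤ M * Real.log (s' / s) := by
    intro N
    induction N with
    | zero =>
      intro s hs s' hs' hss hl
      exact hshort s hs s' hs' hss (by simpa using hl)
    | succ N ih =>
      intro s hs s' hs' hss hl
      by_cases h1 : Real.log (s' / s) ≤ ℓ0
      · exact hshort s hs s' hs' hss h1
      · have h1' : ℓ0 < Real.log (s' / s) := not_le.1 h1
        have hs0 : 0 < s := lt_of_lt_of_le hσ hs.1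
        have hs0' : 0 < s' := lt_of_lt_of_le hs0 hss
        obtain ⟨r, hr⟩ : ∃ r : ℝ, r = s * Real.exp ℓ0 := ⟨_, rfl⟩
        have hr0 : 0 < r := by rw [hr]; positivity
        have hrs' : r ≤ s' := by
          have := (Real.lt_log_iff_exp_lt (div_pos hs0' hs0)).1 h1'
          rw [lt_div_iff₀ hs0] at this
          rw [hr]
          linarith
        have hsr : s ≤ r := by
          rw [hr]
          exact le_mul_of_one_le_right hs0.le (Real.one_le_exp hℓ.le)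
        have e1 : Real.log (r / s) = ℓ0 := by
          rw [hr, mul_div_assoc, mul_comm, div_mul_cancel₀ _ hs0.ne', Real.log_exp]
        have e2 : Real.log (s' / r) = Real.log (s' / s) - ℓ0 := by
          rw [← e1, Real.log_div hs0'.ne' hr0.ne', Real.log_div hs0'.ne' hs0.ne',
            Real.log_div hr0.ne' hs0.ne']
          ring
        have hrm : r ∈ Icc σ σ' := ⟨hs.1.trans hsr, hrs'.trans hs'.2⟩
        have a1 := hshort s hs r hrm hsr e1.le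
        have a2 := ih r hrm s' hs' hrs' (by
          rw [e2]
          push_cast at hl
          linarith)
        calc |f s' - f s| ≤ |f s' - f r| + |f r - f s| := abs_sub_le _ _ _
          _ ≤ M * Real.log (s' / r) + M * Real.log (r / s) := add_le_add a2 a1
          _ = M * Real.log (s' / s) := by rw [e1, e2]; ring
  intro s hs s' hs' hss
  obtain ⟨N, hN⟩ := exists_nat_ge (Real.log (s' / s) / ℓ0)
  refine key N s hs s' hs' hss ?_
  rw [div_le_iff₀ hℓ] at hN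
  linarith

/-- arithmetic of the quotient `Ż/I` on a short step. -/
theorem env_quot_aux {I0 I1 Z0 Z1 a b c ℓ : ℝ} (hI0 : 0 < I0) (ha : 0 ≤ a) (hb : 0 ≤ b)
    (hc : 0 ≤ c) (hℓ : 0 ≤ ℓ) (h1 : I1 ≤ I0 * (1 + a * ℓ)) (h2 : I0 * (1 - b * ℓ) ≤ I1)
    (hbl : b * ℓ ≤ 1 / 2) (h3 : |Z1 - Z0| ≤ b * I0 * ℓ) (h4 : |Z0| ≤ c * I0) :
    |Z1 / I1 - Z0 / I0| ≤ 2 * (b + c * (a + b)) * ℓ := by
  have hI1 : I0 / 2 ≤ I1 := by
    have : I0 * (1 / 2) ≤ I0 * (1 - b * ℓ) := mul_le_mul_of_nonneg_left (by linarith) hI0.le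
    linarith
  have hI1p : 0 < I1 := by linarith
  have e : Z1 / I1 - Z0 / I0 = ((Z1 - Z0) * I0 + Z0 * (I0 - I1)) / (I1 * I0) := by
    field_simp
    ring
  have hal : 0 ≤ a * ℓ := mul_nonneg ha hℓ
  have hbl0 : 0 ≤ b * ℓ := mul_nonneg hb hℓ
  have h5 : |I0 - I1| ≤ (a + b) * ℓ * I0 := by
    have e1 : I0 * (1 + a * ℓ) = I0 + a * ℓ * I0 := by ring
    have e2 : I0 * (1 - b * ℓ) = I0 - b * ℓ * I0 := by ring
    have e3 : (a + b) * ℓ * I0 = a * ℓ * I0 + b * ℓ * I0 := by ring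
    have p1 : 0 ≤ a * ℓ * I0 := mul_nonneg hal hI0.le
    have p2 : 0 ≤ b * ℓ * I0 := mul_nonneg hbl0 hI0.le
    rw [abs_le]
    constructor <;> linarith
  have h6 : |(Z1 - Z0) * I0 + Z0 * (I0 - I1)| ≤ (b + c * (a + b)) * ℓ * (I0 * I0) := by
    calc |(Z1 - Z0) * I0 + Z0 * (I0 - I1)| ≤ |(Z1 - Z0) * I0| + |Z0 * (I0 - I1)| := abs_add_le _ _
      _ = |Z1 - Z0| * I0 + |Z0| * |I0 - I1| := by rw [abs_mul, abs_mul, abs_of_pos hI0]
      _ ≤ b * I0 * ℓ * I0 + c * I0 * ((a + b) * ℓ * I0) :=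
          add_le_add (mul_le_mul_of_nonneg_right h3 hI0.le)
            (mul_le_mul h4 h5 (abs_nonneg _) (by positivity))
      _ = _ := by ring
  rw [e, abs_div, abs_of_pos (mul_pos hI1p hI0), div_le_iff₀ (mul_pos hI1p hI0)]
  refine h6.trans ?_
  have h7 : I0 / 2 * I0 ≤ I1 * I0 := mul_le_mul_of_nonneg_right hI1 hI0.le
  have h8 : 0 ≤ 2 * (b + c * (a + b)) * ℓ := by positivity
  calc (b + c * (a + b)) * ℓ * (I0 * I0) = 2 * (b + c * (a + b)) * ℓ * (I0 / 2 * I0) := by ring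
    _ ≤ _ := mul_le_mul_of_nonneg_left h7 h8

/-- `e^x ≤ 1 + K e^K ℓ` for `x = K ℓ`, `0 ≤ ℓ ≤ 1`. -/
theorem env_exp_le {K ℓ : ℝ} (hK : 0 < K) (hℓ : 0 ≤ ℓ) (hℓ1 : ℓ ≤ 1) :
    Real.exp (K * ℓ) ≤ 1 + K * Real.exp K * ℓ := by
  have h1 := Real.add_one_le_exp (-(K * ℓ))
  have h2 : Real.exp (K * ℓ) * Real.exp (-(K * ℓ)) = 1 := by rw [← Real.exp_add]; simp
  have h3 : Real.exp (K * ℓ) ≤ Real.exp K := Real.exp_le_exp.2 (by nlinarith)
  have h4 : 0 < Real.exp (K * ℓ) := Real.exp_pos _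
  have h5 : Real.exp (K * ℓ) * (-(K * ℓ) + 1) ≤ 1 :=
    (mul_le_mul_of_nonneg_left h1 h4.le).trans h2.le
  have h6 : Real.exp (K * ℓ) * (K * ℓ) ≤ Real.exp K * (K * ℓ) :=
    mul_le_mul_of_nonneg_right h3 (by positivity)
  nlinarith

/-- `log (1 - x) ≥ - 2 x` for `0 ≤ x ≤ 1/2`. -/
theorem env_log_one_sub {x : ℝ} (h0 : 0 ≤ x) (h1 : x ≤ 1 / 2) : -(2 * x) ≤ Real.log (1 - x) := by
  have hp : 0 < 1 - x := by linarith
  have h2 := Real.one_sub_inv_le_log_of_pos hp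
  have h3 : (1 - x)⁻¹ ≤ 1 + 2 * x := by
    rw [inv_le_iff_one_le_mul₀ hp]
    nlinarith
  linarith

theorem PD.env_I_upper {κ Cg : ℝ} (P : PD m n Q) (h : P.Ok κ Cg) (hK : 0 < P.K) {s r : ℝ}
    (hs : 0 < s) (hsr : s ≤ r) (hρ : r ≤ P.ρ) :
    P.I r ≤ Real.exp (P.K * Real.log (r / s)) * P.I s := by
  have := P.I_mono h hK hs hsr hρ
  rwa [Real.rpow_def_of_pos (div_pos (lt_of_lt_of_le hs hsr) hs), mul_comm (Real.log _)] at this

theorem PD.env_I_upper' {κ Cg : ℝ} (P : PD m n Q) (h : P.Ok κ Cg) (hK : 0 < P.K) {s s' r : ℝ}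
    (hs : 0 < s) (hsr : s ≤ r) (hrs : r ≤ s') (hρ : s' ≤ P.ρ) (hl : Real.log (s' / s) ≤ 1) :
    P.I r ≤ Real.exp P.K * P.I s := by
  refine (P.env_I_upper h hK hs hsr (hrs.trans hρ)).trans ?_
  apply mul_le_mul_of_nonneg_right _ (P.I_pos h hs).le
  apply Real.exp_le_exp.2
  have h1 : Real.log (r / s) ≤ Real.log (s' / s) :=
    Real.log_le_log (div_pos (lt_of_lt_of_le hs hsr) hs) (div_le_div_of_nonneg_right hrs hs.le)
  calc P.K * Real.log (r / s) ≤ P.K * 1 := mul_le_mul_of_nonneg_left (h1.trans hl) hK.le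
    _ = P.K := mul_one _

theorem PD.env_I_lower {κ Cg c : ℝ} (P : PD m n Q) (h : P.Ok κ Cg) (hK : 0 < P.K) (hc : 0 ≤ c)
    {s s' : ℝ} (hs : 0 < s) (hss : s ≤ s') (hρ : s' ≤ P.ρ) (hl : Real.log (s' / s) ≤ 1)
    (hreg : ∀ r ∈ Icc s s', |P.Adot r| ≤ c * P.I r) :
    P.I s * (1 - c * Real.exp P.K * Real.log (s' / s)) ≤ P.I s' := by
  have hs' : 0 < s' := lt_of_lt_of_le hs hss
  have hI := P.I_pos h hs
  have hl0 : 0 ≤ Real.log (s' / s) := Real.log_nonneg ((one_le_div hs).2 hss)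
  have hx : 0 ≤ c * Real.exp P.K * Real.log (s' / s) := by positivity
  have hsuff : P.I s ≤ P.I s' →
      P.I s * (1 - c * Real.exp P.K * Real.log (s' / s)) ≤ P.I s' := fun h1 => by
    have : P.I s * (1 - c * Real.exp P.K * Real.log (s' / s)) ≤ P.I s * 1 :=
      mul_le_mul_of_nonneg_left (by linarith) hI.le
    linarith
  rcases P.I_cases h hs (hss.trans hρ) with h1 | ⟨v, hv, h1⟩
  · apply hsuff
    have e1 := P.Iend_eq h hs
    have e2 := P.Iend_eq h hs'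
    have hp : 0 < s ^ P.K := Real.rpow_pos_of_pos hs _
    have hcE : 0 < P.cE := by
      rw [h1, e1] at hI
      exact (mul_pos_iff_of_pos_left hp).1 hI
    calc P.I s = s ^ P.K * P.cE := by rw [h1, e1]
      _ ≤ s' ^ P.K * P.cE :=
          mul_le_mul_of_nonneg_right (Real.rpow_le_rpow hs.le hss hK.le) hcE.le
      _ = P.Iend s' := e2.symm
      _ ≤ P.I s' := P.I_ge_end s'
  · have hv0 : 0 < v := lt_of_lt_of_le hs hv.1
    have hp : 0 < (s / v) ^ P.K := Real.rpow_pos_of_pos (div_pos hs hv0) _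
    have hA : 0 < P.A v := by
      rw [h1] at hI
      exact (mul_pos_iff_of_pos_left hp).1 hI
    rcases le_total s' v with hv' | hv'
    · apply hsuff
      rw [h1]
      refine le_trans ?_ (P.I_ge_future h hs' hv' hv.2)
      exact mul_le_mul_of_nonneg_right (Real.rpow_le_rpow (div_pos hs hv0).le
        (div_le_div_of_nonneg_right hss hv0.le) hK.le) hA.le
    · have a1 := env_mv (fun r hr => P.hasDerivAt_A h hr) hv0 hv'
        (M := c * (Real.exp P.K * P.I s)) fun r hr =>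
          (hreg r ⟨hv.1.trans hr.1, hr.2⟩).trans
            (mul_le_mul_of_nonneg_left (P.env_I_upper' h hK hs (hv.1.trans hr.1) hr.2 hρ hl) hc)
      have a2 : Real.log (s' / v) ≤ Real.log (s' / s) :=
        Real.log_le_log (div_pos hs' hv0) (div_le_div_of_nonneg_left hs'.le hs hv.1)
      have a3 : P.I s ≤ P.A v := by
        rw [h1]
        have : (s / v) ^ P.K ≤ 1 :=
          Real.rpow_le_one (div_pos hs hv0).le ((div_le_one hv0).2 hv.1) hK.le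
        exact mul_le_of_le_one_left hA.le this
      have a4 := P.I_ge_A h hs' hρ
      have a5 := (abs_le.1 a1).1
      have a6 : c * (Real.exp P.K * P.I s) * Real.log (s' / v)
          ≤ c * (Real.exp P.K * P.I s) * Real.log (s' / s) :=
        mul_le_mul_of_nonneg_left a2 (by positivity)
      have e : P.I s * (1 - c * Real.exp P.K * Real.log (s' / s))
          = P.I s - c * (Real.exp P.K * P.I s) * Real.log (s' / s) := by ring
      rw [e]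
      linarith

theorem PD.env_a_short {κ Cg c : ℝ} (P : PD m n Q) (h : P.Ok κ Cg) (hK : 0 < P.K) (hc : 0 ≤ c)
    {s s' : ℝ} (hs : 0 < s) (hss : s ≤ s') (hρ : s' ≤ P.ρ) (hl : Real.log (s' / s) ≤ 1)
    (hx : c * Real.exp P.K * Real.log (s' / s) ≤ 1 / 2)
    (hreg : ∀ r ∈ Icc s s', |P.Adot r| ≤ c * P.I r) :
    |P.a s' - P.a s| ≤ (2 + P.K + 2 * (c * Real.exp P.K)) * Real.log (s' / s) := by
  have hs' : 0 < s' := lt_of_lt_of_le hs hss
  have hI := P.I_pos h hs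
  have hI' := P.I_pos h hs'
  have hl0 : 0 ≤ Real.log (s' / s) := Real.log_nonneg ((one_le_div hs).2 hss)
  have hx0 : 0 ≤ c * Real.exp P.K * Real.log (s' / s) := by positivity
  have u1 := P.env_I_upper h hK hs hss hρ
  have u2 := P.env_I_lower h hK hc hs hss hρ hl hreg
  have l1 : Real.log (P.I s') ≤ P.K * Real.log (s' / s) + Real.log (P.I s) := by
    have := Real.log_le_log hI' u1
    rwa [Real.log_mul (Real.exp_pos _).ne' hI.ne', Real.log_exp] at this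
  have l2 : Real.log (P.I s) + -(2 * (c * Real.exp P.K * Real.log (s' / s))) ≤ Real.log (P.I s') := by
    have hp : 0 < 1 - c * Real.exp P.K * Real.log (s' / s) := by linarith
    have := Real.log_le_log (mul_pos hI hp) u2
    rw [Real.log_mul hI.ne' hp.ne'] at this
    have := env_log_one_sub hx0 hx
    linarith
  have ea : ∀ t : ℝ, 0 < t → P.a t = 2 * Real.log t - Real.log (P.I t) := fun t ht => by
    unfold PD.a
    rw [Real.log_div (by positivity) (P.I_pos h ht).ne', Real.log_pow]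
    norm_num
  have el : Real.log (s' / s) = Real.log s' - Real.log s := Real.log_div hs'.ne' hs.ne'
  rw [ea s hs, ea s' hs']
  have hKl : 0 ≤ P.K * Real.log (s' / s) := by positivity
  rw [abs_le]
  constructor <;> nlinarith

theorem PD.env_Z_short {κ Cg c : ℝ} (P : PD m n Q) (h : P.Ok κ Cg) (hK : 0 < P.K) (hc : 0 ≤ c)
    {s s' : ℝ} (hs : 0 < s) (hss : s ≤ s') (hρ : s' ≤ P.ρ) (hl : Real.log (s' / s) ≤ 1)
    (hx : c * Real.exp P.K * Real.log (s' / s) ≤ 1 / 2)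
    (hreg : ∀ r ∈ Icc s s', |P.Adot r| ≤ c * P.I r) (hreg1 : |P.Zdot s| ≤ c * P.I s)
    (hreg2 : ∀ r ∈ Icc s s', |P.Zddot r| ≤ c * P.I r) :
    |P.Zdot s' / P.I s' - P.Zdot s / P.I s|
      ≤ 2 * (c * Real.exp P.K + c * (P.K * Real.exp P.K + c * Real.exp P.K)) * Real.log (s' / s) := by
  have hs' : 0 < s' := lt_of_lt_of_le hs hss
  have hI := P.I_pos h hs
  have hl0 : 0 ≤ Real.log (s' / s) := Real.log_nonneg ((one_le_div hs).2 hss)
  have u1 := P.env_I_upper h hK hs hss hρ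
  have u2 := P.env_I_lower h hK hc hs hss hρ hl hreg
  have u3 : P.I s' ≤ P.I s * (1 + P.K * Real.exp P.K * Real.log (s' / s)) := by
    refine u1.trans ?_
    rw [mul_comm]
    exact mul_le_mul_of_nonneg_left (env_exp_le hK hl0 hl) hI.le
  have u4 := env_mv (fun r hr => P.hasDerivAt_Zdot h hr) hs hss
    (M := c * (Real.exp P.K * P.I s)) fun r hr =>
      (hreg2 r hr).trans (mul_le_mul_of_nonneg_left (P.env_I_upper' h hK hs hr.1 hr.2 hρ hl) hc)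
  have u5 : |P.Zdot s' - P.Zdot s| ≤ c * Real.exp P.K * P.I s * Real.log (s' / s) := by
    refine u4.trans (le_of_eq ?_)
    ring
  exact env_quot_aux hI (by positivity) (by positivity) hc hl0 u3 u2 hx u5 hreg1

/-- Step 6: Lipschitz bounds in `log s` from `|Ȧ| + |Ż| + |Z̈| ≤ C I` on an interval
(`I(s') ≤ (s'/s)^K I(s)`; `I(s') ≥ A(s') ≥ A(v) - C ∫ I` for the scale `v ∈ [s, s']` realising `I(s)`,
or `I(s') = (s'/s)^K I(s)`; chain over short steps). -/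
theorem env_lip (m n Q : ℕ) (κ Cg K C : ℝ) (hK : 0 < K) :
    ∃ C' : ℝ, 0 < C' ∧ ∀ P : PD m n Q, P.K = K → P.Ok κ Cg → ∀ σ σ' : ℝ, 0 < σ → σ ≤ σ' →
      σ' < P.ρ → (∀ s ∈ Icc σ σ', |P.Adot s| + |P.Zdot s| + |P.Zddot s| ≤ C * P.I s) →
      ∀ s ∈ Icc σ σ', ∀ s' ∈ Icc σ σ', s ≤ s' →
        |P.a s' - P.a s| ≤ C' * Real.log (s' / s) ∧
        |P.Zdot s' / P.I s' - P.Zdot s / P.I s| ≤ C' * Real.log (s' / s) := by
  obtain ⟨c, hcdef⟩ : ∃ c : ℝ, c = |C| := ⟨_, rfl⟩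
  have hc : 0 ≤ c := by rw [hcdef]; exact abs_nonneg _
  obtain ⟨b, hb⟩ : ∃ b : ℝ, b = c * Real.exp K := ⟨_, rfl⟩
  have hb0 : 0 ≤ b := by rw [hb]; positivity
  obtain ⟨ℓ0, hℓ0⟩ : ∃ ℓ0 : ℝ, ℓ0 = min 1 (1 / (2 * b + 1)) := ⟨_, rfl⟩
  have hℓp : 0 < ℓ0 := by rw [hℓ0]; exact lt_min one_pos (by positivity)
  have hℓ1 : ℓ0 ≤ 1 := by rw [hℓ0]; exact min_le_left _ _
  have hℓb : b * ℓ0 ≤ 1 / 2 := by
    have h1 : ℓ0 ≤ 1 / (2 * b + 1) := by rw [hℓ0]; exact min_le_right _ _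
    have h2 : b * ℓ0 ≤ b * (1 / (2 * b + 1)) := mul_le_mul_of_nonneg_left h1 hb0
    refine h2.trans ?_
    rw [mul_one_div, div_le_iff₀ (by positivity)]
    linarith
  refine ⟨max (2 + K + 2 * b) (2 * (b + c * (K * Real.exp K + b))),
    lt_of_lt_of_le (by positivity) (le_max_left _ _), fun P hPK h σ σ' hσ hσσ hρ hreg => ?_⟩
  have hPK' : 0 < P.K := by rw [hPK]; exact hK
  have hreg' : ∀ s ∈ Icc σ σ', |P.Adot s| + |P.Zdot s| + |P.Zddot s| ≤ c * P.I s := fun s hs =>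
    (hreg s hs).trans (mul_le_mul_of_nonneg_right (by rw [hcdef]; exact le_abs_self C)
      (P.I_pos h (lt_of_lt_of_le hσ hs.1)).le)
  have r1 : ∀ s ∈ Icc σ σ', |P.Adot s| ≤ c * P.I s := fun s hs => by
    have := hreg' s hs
    have := abs_nonneg (P.Zdot s)
    have := abs_nonneg (P.Zddot s)
    linarith
  have r2 : ∀ s ∈ Icc σ σ', |P.Zdot s| ≤ c * P.I s := fun s hs => by
    have := hreg' s hs
    have := abs_nonneg (P.Adot s)
    have := abs_nonneg (P.Zddot s)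
    linarith
  have r3 : ∀ s ∈ Icc σ σ', |P.Zddot s| ≤ c * P.I s := fun s hs => by
    have := hreg' s hs
    have := abs_nonneg (P.Adot s)
    have := abs_nonneg (P.Zdot s)
    linarith
  have hxs : ∀ s s' : ℝ, 0 < s → s ≤ s' → Real.log (s' / s) ≤ ℓ0 →
      c * Real.exp P.K * Real.log (s' / s) ≤ 1 / 2 := fun s s' hs hss hl => by
    rw [hPK, ← hb]
    exact (mul_le_mul_of_nonneg_left hl hb0).trans hℓb
  have hA := env_chain (f := P.a) (M := 2 + K + 2 * b) hσ hℓp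
    fun s hs s' hs' hss hl => by
      have hs0 := lt_of_lt_of_le hσ hs.1
      have := P.env_a_short h hPK' hc hs0 hss (hs'.2.trans hρ.le) (hl.trans hℓ1)
        (hxs s s' hs0 hss hl) fun r hr => r1 r ⟨hs.1.trans hr.1, hr.2.trans hs'.2⟩
      rwa [hPK, ← hb] at this
  have hZ := env_chain (f := fun s => P.Zdot s / P.I s)
    (M := 2 * (b + c * (K * Real.exp K + b))) hσ hℓp
    fun s hs s' hs' hss hl => by
      have hs0 := lt_of_lt_of_le hσ hs.1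
      have := P.env_Z_short h hPK' hc hs0 hss (hs'.2.trans hρ.le) (hl.trans hℓ1)
        (hxs s s' hs0 hss hl) (fun r hr => r1 r ⟨hs.1.trans hr.1, hr.2.trans hs'.2⟩) (r2 s hs)
        fun r hr => r3 r ⟨hs.1.trans hr.1, hr.2.trans hs'.2⟩
      rwa [hPK, ← hb] at this
  intro s hs s' hs' hss
  have hlog : 0 ≤ Real.log (s' / s) :=
    Real.log_nonneg ((one_le_div (lt_of_lt_of_le hσ hs.1)).2 hss)
  exact ⟨(hA s hs s' hs' hss).trans (mul_le_mul_of_nonneg_right (le_max_left _ _) hlog),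
    (hZ s hs s' hs' hss).trans (mul_le_mul_of_nonneg_right (le_max_right _ _) hlog)⟩

end Claimed.Agent.R322.Sx
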