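import Claimed.Agent.R322.Sx.Env.Defs

/-!
# R322 / Sx / Env / A : derivatives, absorption of the geometric error, bank (AE (5.5))   [leaf L-Sx-EnvA]

PLAN.  `Chart` for `Gauss.lean`: `h.exists_chart` (constant depending on `P`; enough for the derivatives) and
`env_chart` (uniform constant; for `geom_absorb`), both in `Env/Defs.lean`.
* derivatives: `Valid.hasDerivAt_Mav`, `Valid.hasDerivAt_avg` (`g = S.e`, bounded by `m`: `Valid.e_nonneg/e_le/meas_e`;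
  `g = S.lam`, bounded by `S.Cg`), `Valid.hasDerivAt_tauav`; `intD w = ∫ w q.1 * e q`, `avg χ v x g = ∫ ker q.1 * g q` (rfl).
  `Z`: `intervalIntegral.integral_hasDerivAt_right` with continuity of `v ↦ v * fst v` on `(0, ∞)`.
* `geom_absorb`: `Adot s - s² (Lv s + Rv s) = s² (intM kerDot + D_s - R_s)` (unfold), `gauss_mass` gives
  `≤ s² (C γ pm(s) + C tailG m K0 s 1 1)`.
  (1) body `|u| ≤ T`: `ker (1+|u|²) ≤ (1+T²) ker`;
  (2) tail `|u| > T`, case `2 s ≤ ρ`: pointwise `G_s(z) (1+|u|²) ≤ 2^m (1+|u|²) e^{-3|u|²/8} G_{2s}(z) ≤ e^{-T} G_{2s}(z)` for `T` large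
      (`(1+r²) e^{-3r²/8}` decreasing for `r ≥ 2`), so the tail is `≤ e^{-T} τ_{2s} ≤ e^{-T} d_* ≤ d` (`h.thr`);
      case `2 s > ρ`: `G_s(z) (1+|u|²) ≤ s^{-m} (1+|u|²) e^{-|u|²/2} ≤ (2/ρ)^m (1+T²) e^{-T²/2} ≤ 1`, and `τ(closedBall 0 3) ≤ e^{-T} = d` (`h.tau_cball`);
      hence `pm(s) ≤ (1+T²) τ_s + d`;   `C γ (1+T²) ≤ C e^{-κT} (1+T²) ≤ η/16`  (`F = o(T)`: `FQ_pow_div`);
  (3) `tailG m K0 s 1 1 = 2 K0 s^{-m} e^{-1/(4s²)}`, `s ≤ ρ ≤ T^{-2}`: `x^{m/2} e^{-x/4} ≤ C_m e^{-x/8}` at `x = s^{-2} ≥ T⁴`, so it is `≤ η d/(16 C)`.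
* `bank`: see the computations in the docstrings of `Bank`;  `fst = Lp - (η/4)(τ+d)`;  `Z ≥ 0` from `h.cum` (monotonicity of the integral, `τ + d ≥ 0`);
  `A(sb) ≥ 0` from `h.ini` (`2 M ≥ D + C_Q Λ ≥ 0`);  `retained`, `upper` from `geom_absorb`;  `mono` from `retained ≥ 0` and the derivatives
  (`monotoneOn_of_deriv_nonneg` or the mean value inequality on `[s, s']`);  `Z_le_A` from `mono` and `Z(sb) = 0`.
-/

set_option autoImplicit false

namespace Claimed.Agent.R322.Sx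

open MeasureTheory Set Metric
open scoped ENNReal NNReal InnerProductSpace

variable {m n Q : ℕ}

theorem PD.envA_hasDerivAt_Mv {κ Cg : ℝ} (P : PD m n Q) (h : P.Ok κ Cg) {s : ℝ} (hs : 0 < s) :
    HasDerivAt P.Mv (s⁻¹ * P.S.intM Q (kerDot P.χ s P.x)) s := by
  obtain ⟨K0, hc⟩ := P.exists_chart h
  exact h.root.hyp.valid.hasDerivAt_Mav Q hc hs

theorem PD.envA_hasDerivAt_Dv {κ Cg : ℝ} (P : PD m n Q) (h : P.Ok κ Cg) {s : ℝ} (hs : 0 < s) :
    HasDerivAt P.Dv (s⁻¹ * P.S.intD (kerDot P.χ s P.x)) s := by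
  obtain ⟨K0, hc⟩ := P.exists_chart h
  have hV := h.root.hyp.valid
  exact hV.hasDerivAt_avg hc hs hV.meas_e m (fun q => by
    rw [abs_of_nonneg (hV.e_nonneg q)]; exact hV.e_le q)

theorem PD.envA_hasDerivAt_Lamv {κ Cg : ℝ} (P : PD m n Q) (h : P.Ok κ Cg) {s : ℝ} (hs : 0 < s) :
    HasDerivAt P.Lamv (s⁻¹ * P.S.intLam (kerDot P.χ s P.x)) s := by
  obtain ⟨K0, hc⟩ := P.exists_chart h
  have hV := h.root.hyp.valid
  exact hV.hasDerivAt_avg hc hs hV.meas_lam P.S.Cg (fun q => by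
    rw [abs_of_nonneg (hV.lam_nonneg q)]; exact hV.lam_le q)

theorem PD.hasDerivAt_A {κ Cg : ℝ} (P : PD m n Q) (h : P.Ok κ Cg) {s : ℝ} (hs : 0 < s) :
    HasDerivAt P.A (P.Adot s / s) s := by
  have h1 := ((hasDerivAt_id s).fun_pow 2).fun_mul (P.envA_hasDerivAt_Mv h hs)
  have e : P.Adot s / s = (2 : ℕ) * id s ^ (2 - 1) * 1 * P.Mv s
      + id s ^ 2 * (s⁻¹ * P.S.intM Q (kerDot P.χ s P.x)) := by
    unfold PD.Adot PD.A
    simp only [id]
    field_simp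
    push_cast
    ring
  rw [e]
  exact h1

theorem PD.hasDerivAt_tau {κ Cg : ℝ} (P : PD m n Q) (h : P.Ok κ Cg) {s : ℝ} (hs : 0 < s) :
    HasDerivAt P.tau (s⁻¹ * ∫ y, kerDot P.χ s P.x y ∂(P.S.tau Q)) s := by
  obtain ⟨K0, hc⟩ := P.exists_chart h
  exact h.root.hyp.valid.hasDerivAt_tauav Q hc hs

theorem PD.hasDerivAt_fst {κ Cg : ℝ} (P : PD m n Q) (h : P.Ok κ Cg) {s : ℝ} (hs : 0 < s) :
    HasDerivAt P.fst (P.fstDot s / s) s := by
  have h1 := ((((P.envA_hasDerivAt_Mv h hs).const_mul 2).fun_sub (P.envA_hasDerivAt_Dv h hs)).fun_sub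
    ((P.envA_hasDerivAt_Lamv h hs).const_mul P.CQ)).fun_sub
    (((P.hasDerivAt_tau h hs).add_const P.d).const_mul (P.η / 4))
  have e : P.fstDot s / s = 2 * (s⁻¹ * P.S.intM Q (kerDot P.χ s P.x))
      - s⁻¹ * P.S.intD (kerDot P.χ s P.x) - P.CQ * (s⁻¹ * P.S.intLam (kerDot P.χ s P.x))
      - P.η / 4 * (s⁻¹ * ∫ y, kerDot P.χ s P.x y ∂(P.S.tau Q)) := by
    unfold PD.fstDot Sys.intL
    field_simp
  rw [e]
  exact h1

theorem PD.envA_continuousOn_fst {κ Cg : ℝ} (P : PD m n Q) (h : P.Ok κ Cg) :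
    ContinuousOn (fun v => v * P.fst v) (Ioi 0) := fun _ hv =>
  (continuousAt_id.mul (P.hasDerivAt_fst h hv).continuousAt).continuousWithinAt

theorem envA_intervalIntegrable {f : ℝ → ℝ}
    (hf : ContinuousOn f (Ioi 0)) {a b : ℝ} (ha : 0 < a) (hb : 0 < b) :
    IntervalIntegrable f volume a b := by
  refine (hf.mono ?_).intervalIntegrable
  intro v hv
  exact lt_of_lt_of_le (lt_min ha hb) hv.1

theorem PD.hasDerivAt_Z {κ Cg : ℝ} (P : PD m n Q) (h : P.Ok κ Cg) {s : ℝ} (hs : 0 < s) :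
    HasDerivAt P.Z (P.Zdot s / s) s := by
  have hc := P.envA_continuousOn_fst h
  have h1 := intervalIntegral.integral_hasDerivAt_right
    (envA_intervalIntegrable hc h.sb_pos hs)
    (hc.stronglyMeasurableAtFilter isOpen_Ioi s hs)
    (hc.continuousAt (isOpen_Ioi.mem_nhds hs))
  have e : P.Zdot s / s = s * P.fst s := by
    unfold PD.Zdot
    field_simp
  rw [e]
  exact h1

theorem PD.hasDerivAt_Zdot {κ Cg : ℝ} (P : PD m n Q) (h : P.Ok κ Cg) {s : ℝ} (hs : 0 < s) :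
    HasDerivAt P.Zdot (P.Zddot s / s) s := by
  have h1 := ((hasDerivAt_id s).fun_pow 2).fun_mul (P.hasDerivAt_fst h hs)
  have e : P.Zddot s / s = (2 : ℕ) * id s ^ (2 - 1) * 1 * P.fst s
      + id s ^ 2 * (P.fstDot s / s) := by
    unfold PD.Zddot PD.Zdot
    simp only [id]
    field_simp
    push_cast
    ring
  rw [e]
  exact h1

/-! ### scalar lemmas -/

theorem envA_two_pow_le (k : ℕ) : (2 : ℝ) ^ k ≤ Real.exp k := by
  have h2 : (2 : ℝ) ≤ Real.exp 1 := by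
    have := Real.add_one_le_exp (1 : ℝ)
    linarith
  calc (2 : ℝ) ^ k ≤ Real.exp 1 ^ k := pow_le_pow_left₀ (by norm_num) h2 k
    _ = Real.exp k := by rw [← Real.exp_nat_mul, mul_one]

theorem envA_one_add_sq_le (r : ℝ) : 1 + r ^ 2 ≤ 8 * Real.exp (r ^ 2 / 8) := by
  have := Real.add_one_le_exp (r ^ 2 / 8)
  nlinarith [sq_nonneg r]

/-- `2^m (1+r²) e^{-3r²/8} ≤ e^{-T}` for `r ≥ T ≥ max 8 (m+3)`. -/
theorem envA_scalar1 (m : ℕ) {T r : ℝ} (h8 : 8 ≤ T) (hm : (m : ℝ) + 3 ≤ T) (hr : T ≤ r) :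
    2 ^ m * (1 + r ^ 2) * Real.exp (-(3 * r ^ 2 / 8)) ≤ Real.exp (-T) := by
  have a1 := envA_one_add_sq_le r
  have a2 : (2 : ℝ) ^ m * 8 ≤ Real.exp T := by
    have h := envA_two_pow_le (m + 3)
    have e : (2 : ℝ) ^ (m + 3) = 2 ^ m * 8 := by rw [pow_add]; norm_num
    rw [e] at h
    refine h.trans (Real.exp_le_exp.2 ?_)
    push_cast
    exact hm
  have p : (0 : ℝ) < 2 ^ m := by positivity
  calc 2 ^ m * (1 + r ^ 2) * Real.exp (-(3 * r ^ 2 / 8))
      ≤ 2 ^ m * (8 * Real.exp (r ^ 2 / 8)) * Real.exp (-(3 * r ^ 2 / 8)) := by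
        gcongr
    _ = (2 ^ m * 8) * (Real.exp (r ^ 2 / 8) * Real.exp (-(3 * r ^ 2 / 8))) := by ring
    _ ≤ Real.exp T * (Real.exp (r ^ 2 / 8) * Real.exp (-(3 * r ^ 2 / 8))) := by
        gcongr
    _ = Real.exp (T + (r ^ 2 / 8 + -(3 * r ^ 2 / 8))) := by
        rw [← Real.exp_add, ← Real.exp_add]
    _ ≤ Real.exp (-T) := by
        apply Real.exp_le_exp.2
        nlinarith

theorem envA_rpow_neg (m : ℕ) {s : ℝ} (hs : 0 < s) : s ^ (-(m : ℝ)) = (s⁻¹) ^ m := by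
  rw [Real.rpow_neg hs.le, Real.rpow_natCast, inv_pow]

theorem envA_norm_sq {m : ℕ} {s : ℝ} (hs : 0 < s) (z : E m) :
    ‖z‖ ^ 2 = ‖s⁻¹ • z‖ ^ 2 * s ^ 2 := by
  rw [norm_smul, Real.norm_eq_abs, abs_of_pos (inv_pos.2 hs)]
  field_simp

/-- `G_s (1+|u|²) ≤ e^{-T} G_{2s}` on `|u| ≥ T`. -/
theorem envA_gauss_cmpA (m : ℕ) {s T : ℝ} (hs : 0 < s) (h8 : 8 ≤ T) (hm : (m : ℝ) + 3 ≤ T)
    (z : E m) (hz : T ≤ ‖s⁻¹ • z‖) :
    gauss m s z * (1 + ‖s⁻¹ • z‖ ^ 2) ≤ Real.exp (-T) * gauss m (2 * s) z := by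
  set r := ‖s⁻¹ • z‖ with hr
  have hzz := envA_norm_sq hs z
  rw [← hr] at hzz
  have h2s : (0 : ℝ) < 2 * s := by positivity
  rw [gs_gauss_def, gs_gauss_def, gs_coef m hs, gs_coef m h2s,
    Real.mul_rpow (by norm_num) hs.le, envA_rpow_neg m (by norm_num : (0 : ℝ) < 2), hzz]
  have e1 : -(r ^ 2 * s ^ 2) / (2 * s ^ 2) = -(r ^ 2 / 2) := by field_simp
  have e2 : -(r ^ 2 * s ^ 2) / (2 * (2 * s) ^ 2) = -(r ^ 2 / 8) := by
    field_simp
    ring
  rw [e1, e2]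
  have sc := envA_scalar1 m h8 hm hz
  have c0 : 0 < (2 * Real.pi) ^ (-(m : ℝ) / 2) * s ^ (-(m : ℝ)) :=
    mul_pos (Real.rpow_pos_of_pos (by positivity) _) (Real.rpow_pos_of_pos hs _)
  have p : (0 : ℝ) < 2 ^ m := by positivity
  have e3 : Real.exp (-(r ^ 2 / 2)) = Real.exp (-(3 * r ^ 2 / 8)) * Real.exp (-(r ^ 2 / 8)) := by
    rw [← Real.exp_add]
    congr 1
    ring
  have key : (1 + r ^ 2) * Real.exp (-(r ^ 2 / 2))
      ≤ Real.exp (-T) * ((2 : ℝ)⁻¹ ^ m * Real.exp (-(r ^ 2 / 8))) := by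
    rw [e3, inv_pow]
    have : (1 + r ^ 2) * Real.exp (-(3 * r ^ 2 / 8)) ≤ Real.exp (-T) * ((2 : ℝ) ^ m)⁻¹ := by
      rw [← div_eq_mul_inv, le_div_iff₀ p]
      calc _ = 2 ^ m * (1 + r ^ 2) * Real.exp (-(3 * r ^ 2 / 8)) := by ring
        _ ≤ _ := sc
    calc (1 + r ^ 2) * (Real.exp (-(3 * r ^ 2 / 8)) * Real.exp (-(r ^ 2 / 8)))
        = ((1 + r ^ 2) * Real.exp (-(3 * r ^ 2 / 8))) * Real.exp (-(r ^ 2 / 8)) := by ring
      _ ≤ (Real.exp (-T) * ((2 : ℝ) ^ m)⁻¹) * Real.exp (-(r ^ 2 / 8)) :=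
          mul_le_mul_of_nonneg_right this (Real.exp_pos _).le
      _ = _ := by ring
  calc (2 * Real.pi) ^ (-(m : ℝ) / 2) * s ^ (-(m : ℝ)) * Real.exp (-(r ^ 2 / 2)) * (1 + r ^ 2)
      = ((2 * Real.pi) ^ (-(m : ℝ) / 2) * s ^ (-(m : ℝ)))
          * ((1 + r ^ 2) * Real.exp (-(r ^ 2 / 2))) := by ring
    _ ≤ ((2 * Real.pi) ^ (-(m : ℝ) / 2) * s ^ (-(m : ℝ)))
          * (Real.exp (-T) * ((2 : ℝ)⁻¹ ^ m * Real.exp (-(r ^ 2 / 8)))) :=
        mul_le_mul_of_nonneg_left key c0.le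
    _ = _ := by ring

/-- `G_s (1+|u|²) ≤ 1` on `|u| ≥ T` if `2 s > ρ`. -/
theorem envA_gauss_cmpB (m : ℕ) {s ρ T : ℝ} (hρ : 0 < ρ) (hs : ρ < 2 * s) (hT : 0 ≤ T)
    (hcond : (2 / ρ) ^ m * 8 * Real.exp (-(3 * T ^ 2 / 8)) ≤ 1)
    (z : E m) (hz : T ≤ ‖s⁻¹ • z‖) :
    gauss m s z * (1 + ‖s⁻¹ • z‖ ^ 2) ≤ 1 := by
  have hs0 : 0 < s := by linarith
  set r := ‖s⁻¹ • z‖ with hr
  have hzz := envA_norm_sq hs0 z
  rw [← hr] at hzz
  have h1 := gs_gauss_le_exp m hs0 z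
  rw [hzz, envA_rpow_neg m hs0] at h1
  have e1 : -(r ^ 2 * s ^ 2) / (2 * s ^ 2) = -(r ^ 2 / 2) := by field_simp
  rw [e1] at h1
  have h2 : s⁻¹ ^ m ≤ (2 / ρ) ^ m := by
    apply pow_le_pow_left₀ (inv_pos.2 hs0).le
    rw [inv_le_comm₀ hs0 (by positivity)]
    rw [inv_div]
    linarith
  have h3 := envA_one_add_sq_le r
  have h4 : Real.exp (-(3 * r ^ 2 / 8)) ≤ Real.exp (-(3 * T ^ 2 / 8)) := by
    apply Real.exp_le_exp.2
    nlinarith
  have p0 : 0 ≤ (2 / ρ) ^ m := by positivity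
  calc gauss m s z * (1 + r ^ 2)
      ≤ (s⁻¹ ^ m * Real.exp (-(r ^ 2 / 2))) * (1 + r ^ 2) :=
        mul_le_mul_of_nonneg_right h1 (by positivity)
    _ ≤ ((2 / ρ) ^ m * Real.exp (-(r ^ 2 / 2))) * (8 * Real.exp (r ^ 2 / 8)) := by
        gcongr
    _ = (2 / ρ) ^ m * 8 * (Real.exp (-(r ^ 2 / 2)) * Real.exp (r ^ 2 / 8)) := by ring
    _ = (2 / ρ) ^ m * 8 * Real.exp (-(3 * r ^ 2 / 8)) := by
        rw [← Real.exp_add]
        congr 2
        ring
    _ ≤ (2 / ρ) ^ m * 8 * Real.exp (-(3 * T ^ 2 / 8)) := by gcongr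
    _ ≤ 1 := hcond

/-- the chart tail. -/
theorem envA_tail (m : ℕ) {s T : ℝ} (hs : 0 < s) (h8 : 8 ≤ T) (hsT : s ≤ 1 / T ^ 2) :
    s ^ (-(m : ℝ)) * Real.exp (-1 ^ 2 / (4 * s ^ 2)) ≤ m.factorial * Real.exp (-(T ^ 4 / 8)) := by
  rw [envA_rpow_neg m hs]
  set w := s⁻¹ with hw
  have hw0 : 0 < w := inv_pos.2 hs
  have hwT : T ^ 2 ≤ w := by
    rw [hw, le_inv_comm₀ (by positivity) hs]
    simpa [one_div] using hsT
  have e1 : -1 ^ 2 / (4 * s ^ 2) = -(w ^ 2 / 4) := by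
    rw [hw]
    field_simp
  rw [e1]
  have h1 := Real.pow_div_factorial_le_exp w hw0.le m
  have hf : (0 : ℝ) < m.factorial := by exact_mod_cast Nat.factorial_pos m
  rw [div_le_iff₀ hf] at h1
  calc w ^ m * Real.exp (-(w ^ 2 / 4)) ≤ (Real.exp w * m.factorial) * Real.exp (-(w ^ 2 / 4)) :=
        mul_le_mul_of_nonneg_right h1 (Real.exp_pos _).le
    _ = m.factorial * Real.exp (w + -(w ^ 2 / 4)) := by rw [Real.exp_add]; ring
    _ ≤ m.factorial * Real.exp (-(T ^ 4 / 8)) := by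
        apply mul_le_mul_of_nonneg_left _ hf.le
        apply Real.exp_le_exp.2
        have h64 : 64 ≤ w := by nlinarith
        have h5 : T ^ 4 ≤ w ^ 2 := by
          have : T ^ 4 = (T ^ 2) ^ 2 := by ring
          rw [this]
          exact pow_le_pow_left₀ (by positivity) hwT 2
        nlinarith

/-! ### the polynomial moment -/

theorem PD.envA_int_chi_le {κ Cg : ℝ} (P : PD m n Q) (h : P.Ok κ Cg) :
    Integrable P.χ (P.S.tau Q) ∧ ∫ y, P.χ y ∂(P.S.tau Q) ≤ P.d := by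
  have hi : Integrable P.χ (P.S.tau Q) := by
    have := P.integrable_chi_mul h (g := fun _ => 1) continuous_const
    simpa using this
  refine ⟨hi, ?_⟩
  have h1 := cmpl_integral_withDensity (P.S.tau Q) (cmpl_chi_continuous h.root).measurable
    h.root.cut.nonneg (fun _ => (1 : ℝ))
  have h2 := cmpl_tauT_mass h.root
  have h3 : ∫ _y, (1 : ℝ) ∂(P.S.tauT Q P.χ) = (P.S.tauT Q P.χ univ).toReal := by
    rw [integral_const]
    simp [Measure.real]
  have h4 : ∫ y, P.χ y ∂(P.S.tau Q) = (P.S.tauT Q P.χ univ).toReal := by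
    rw [← h3]
    have : ∫ _y, (1 : ℝ) ∂(P.S.tauT Q P.χ) = ∫ y, P.χ y * 1 ∂(P.S.tau Q) := h1
    rw [this]
    simp
  rw [h4]
  exact h2

theorem PD.envA_dst_le_one (P : PD m n Q) : P.dst ≤ 1 := by
  unfold PD.dst dstT a0T
  rw [Real.exp_le_one_iff]
  have := sq_nonneg (FQ Q P.T)
  linarith

theorem PD.envA_pm_le {κ Cg : ℝ} (P : PD m n Q) (h : P.Ok κ Cg) (h8 : 8 ≤ P.T)
    (hm : (m : ℝ) + 3 ≤ P.T)
    (hcond : (2 / P.ρ) ^ m * 8 * Real.exp (-(3 * P.T ^ 2 / 8)) ≤ 1) {s : ℝ} (hs1 : P.sb ≤ s) :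
    P.pm s ≤ (1 + P.T ^ 2) * P.tau s + P.d := by
  have hs0 : 0 < s := lt_of_lt_of_le h.sb_pos hs1
  have hbody : ∀ y, ‖uu P.x s y‖ ≤ P.T →
      Sys.ker P.χ s P.x y * (1 + ‖uu P.x s y‖ ^ 2) ≤ (1 + P.T ^ 2) * Sys.ker P.χ s P.x y := by
    intro y hy
    have h1 := P.ker_nonneg h s y
    have h2 : ‖uu P.x s y‖ ^ 2 ≤ P.T ^ 2 := pow_le_pow_left₀ (norm_nonneg _) hy 2
    nlinarith
  have hT2 : 0 ≤ 1 + P.T ^ 2 := by positivity
  by_cases hc : 2 * s ≤ P.ρ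
  · have hpt : ∀ y, Sys.ker P.χ s P.x y * (1 + ‖uu P.x s y‖ ^ 2)
        ≤ (1 + P.T ^ 2) * Sys.ker P.χ s P.x y + Real.exp (-P.T) * Sys.ker P.χ (2 * s) P.x y := by
      intro y
      have k1 := P.ker_nonneg h s y
      have k2 := P.ker_nonneg h (2 * s) y
      have e0 := (Real.exp_pos (-P.T)).le
      by_cases hy : ‖uu P.x s y‖ ≤ P.T
      · have := hbody y hy
        have := mul_nonneg e0 k2
        linarith
      · have hy' : P.T ≤ ‖s⁻¹ • (y - P.x)‖ := (not_le.1 hy).le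
        have g := envA_gauss_cmpA m hs0 h8 hm (y - P.x) hy'
        have := mul_le_mul_of_nonneg_left g (h.root.cut.nonneg y)
        have e1 : Sys.ker P.χ s P.x y * (1 + ‖uu P.x s y‖ ^ 2)
            = P.χ y * (gauss m s (y - P.x) * (1 + ‖s⁻¹ • (y - P.x)‖ ^ 2)) := by
          rw [gs_ker_def, uu_def]; ring
        have e2 : Real.exp (-P.T) * Sys.ker P.χ (2 * s) P.x y
            = P.χ y * (Real.exp (-P.T) * gauss m (2 * s) (y - P.x)) := by
          rw [gs_ker_def]; ring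
        rw [e1, e2]
        have := mul_nonneg hT2 k1
        linarith
    have hint := integral_mono (P.integrable_pm h s)
      (((P.integrable_ker h s).const_mul (1 + P.T ^ 2)).add
        ((P.integrable_ker h (2 * s)).const_mul (Real.exp (-P.T)))) hpt
    rw [integral_add' ((P.integrable_ker h s).const_mul _) ((P.integrable_ker h (2 * s)).const_mul _),
      integral_const_mul, integral_const_mul] at hint
    have ht : P.tau (2 * s) ≤ 1 := (h.thr (2 * s) (by linarith) hc).trans P.envA_dst_le_one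
    have : Real.exp (-P.T) * P.tau (2 * s) ≤ P.d := by
      have := mul_le_mul_of_nonneg_left ht (Real.exp_pos (-P.T)).le
      rw [mul_one] at this
      exact this
    calc P.pm s ≤ (1 + P.T ^ 2) * P.tau s + Real.exp (-P.T) * P.tau (2 * s) := hint
      _ ≤ _ := by linarith
  · have hc' : P.ρ < 2 * s := not_le.1 hc
    have hpt : ∀ y, Sys.ker P.χ s P.x y * (1 + ‖uu P.x s y‖ ^ 2)
        ≤ (1 + P.T ^ 2) * Sys.ker P.χ s P.x y + P.χ y := by
      intro y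
      have k1 := P.ker_nonneg h s y
      have k2 := h.root.cut.nonneg y
      by_cases hy : ‖uu P.x s y‖ ≤ P.T
      · have := hbody y hy
        linarith
      · have hy' : P.T ≤ ‖s⁻¹ • (y - P.x)‖ := (not_le.1 hy).le
        have g := envA_gauss_cmpB m (P.ρ_pos h) hc' (by linarith) hcond (y - P.x) hy'
        have := mul_le_mul_of_nonneg_left g k2
        have e1 : Sys.ker P.χ s P.x y * (1 + ‖uu P.x s y‖ ^ 2)
            = P.χ y * (gauss m s (y - P.x) * (1 + ‖s⁻¹ • (y - P.x)‖ ^ 2)) := by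
          rw [gs_ker_def, uu_def]; ring
        rw [e1]
        have := mul_nonneg hT2 k1
        linarith
    obtain ⟨hi, hle⟩ := P.envA_int_chi_le h
    have hint := integral_mono (P.integrable_pm h s)
      (((P.integrable_ker h s).const_mul (1 + P.T ^ 2)).add hi) hpt
    rw [integral_add' ((P.integrable_ker h s).const_mul _) hi, integral_const_mul] at hint
    calc P.pm s ≤ (1 + P.T ^ 2) * P.tau s + ∫ y, P.χ y ∂(P.S.tau Q) := hint
      _ ≤ _ := by linarith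

/-! ### rates -/

theorem envA_rates (m Q : ℕ) (hQ : 1 ≤ Q) (κ : ℝ) (hκ : 0 < κ) (C K : ℝ) (hC : 0 < C) (hK : 0 ≤ K) :
    ∃ T0 : ℝ, ∀ T, T0 ≤ T →
      8 ≤ T ∧ (m : ℝ) + 3 ≤ T ∧ rhoT Q T ≤ 1 / T ^ 2 ∧
      (2 / rhoT Q T) ^ m * 8 * Real.exp (-(3 * T ^ 2 / 8)) ≤ 1 ∧
      C * Real.exp (-κ * T) * (1 + T ^ 2) ≤ etaT Q T / 16 ∧
      C * (K * 2 * (m.factorial * Real.exp (-(T ^ 4 / 8)))) ≤ etaT Q T * Real.exp (-T) / 16 := by
  set A : ℝ := 32 * C * K * m.factorial with hA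
  have hA0 : 0 ≤ A := by positivity
  obtain ⟨T1, -, h1⟩ := env_rate Q hQ (8 * m + 3) 1 one_pos
  obtain ⟨T2, -, h2⟩ := env_rate Q hQ (16 * C + 3) κ hκ
  obtain ⟨T3, -, h3⟩ := env_rate Q hQ (A + 2) 1 one_pos
  refine ⟨max (max T1 T2) (max T3 (max 8 ((m : ℝ) + 3))), fun T hT => ?_⟩
  have t1 : T1 ≤ T := (le_max_left _ _).trans ((le_max_left _ _).trans hT)
  have t2 : T2 ≤ T := (le_max_right _ _).trans ((le_max_left _ _).trans hT)
  have t3 : T3 ≤ T := (le_max_left _ _).trans ((le_max_right _ _).trans hT)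
  have t8 : 8 ≤ T := (le_max_left _ _).trans ((le_max_right _ _).trans ((le_max_right _ _).trans hT))
  have tm : (m : ℝ) + 3 ≤ T :=
    (le_max_right _ _).trans ((le_max_right _ _).trans ((le_max_right _ _).trans hT))
  have hT0 : 0 < T := by linarith
  have r1 := h1 T t1
  have r2 := h2 T t2
  have r3 := h3 T t3
  set F := FQ Q T with hF
  set L := Real.log T with hL
  have hF0 : 0 ≤ F := FQ_nonneg Q T
  have hL0 : 0 ≤ L := Real.log_nonneg (by linarith)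
  have hm0 : (0 : ℝ) ≤ m := Nat.cast_nonneg m
  have hFF : 0 ≤ F ^ 2 := sq_nonneg F
  have hexpL : Real.exp (2 * L) = T ^ 2 := by
    rw [two_mul, Real.exp_add, hL, Real.exp_log hT0]
    ring
  have heta : etaT Q T = Real.exp (-2 * F) := rfl
  refine ⟨t8, tm, ?_, ?_, ?_, ?_⟩
  · unfold rhoT
    apply div_le_div_of_nonneg_right _ (by positivity)
    apply pow_le_one₀ (cmpl_etaT_pos Q T).le
    rw [heta, Real.exp_le_one_iff]
    linarith
  · rw [rhoT_eq Q hT0, ← hF, ← hL]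
    have e1 : 2 / Real.exp (-(8 * F + 2 * L)) ≤ Real.exp (1 + 8 * F + 2 * L) := by
      rw [Real.exp_neg, div_inv_eq_mul]
      have h2 : (2 : ℝ) ≤ Real.exp 1 := by
        have := Real.add_one_le_exp (1 : ℝ)
        linarith
      calc 2 * Real.exp (8 * F + 2 * L) ≤ Real.exp 1 * Real.exp (8 * F + 2 * L) :=
            mul_le_mul_of_nonneg_right h2 (Real.exp_pos _).le
        _ = _ := by rw [← Real.exp_add]; congr 1; ring
    have e2 : (2 / Real.exp (-(8 * F + 2 * L))) ^ m ≤ Real.exp (m * (1 + 8 * F + 2 * L)) := by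
      rw [Real.exp_nat_mul]
      exact pow_le_pow_left₀ (by positivity) e1 m
    have e3 : (8 : ℝ) ≤ Real.exp 3 := by
      have := envA_two_pow_le 3
      norm_num at this
      exact this
    calc (2 / Real.exp (-(8 * F + 2 * L))) ^ m * 8 * Real.exp (-(3 * T ^ 2 / 8))
        ≤ Real.exp (m * (1 + 8 * F + 2 * L)) * Real.exp 3 * Real.exp (-(3 * T ^ 2 / 8)) := by
          gcongr
      _ = Real.exp (m * (1 + 8 * F + 2 * L) + 3 + -(3 * T ^ 2 / 8)) := by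
          rw [Real.exp_add, Real.exp_add]
      _ ≤ 1 := by
          rw [Real.exp_le_one_iff]
          have : m * (1 + 8 * F + 2 * L) + 3 ≤ (8 * m + 3) * (F ^ 2 + F + L + 1) := by
            nlinarith [mul_nonneg hm0 hF0, mul_nonneg hm0 hL0, mul_nonneg hm0 hFF]
          nlinarith
  · rw [heta]
    have e1 : 16 * C ≤ Real.exp (16 * C) := by
      have := Real.add_one_le_exp (16 * C)
      linarith
    have e2 : 1 + T ^ 2 ≤ Real.exp (1 + 2 * L) := by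
      rw [Real.exp_add, hexpL]
      have h2 : (2 : ℝ) ≤ Real.exp 1 := by
        have := Real.add_one_le_exp (1 : ℝ)
        linarith
      nlinarith
    have e3 : 16 * C * (1 + T ^ 2) * Real.exp (-κ * T) ≤ Real.exp (-2 * F) := by
      calc 16 * C * (1 + T ^ 2) * Real.exp (-κ * T)
          ≤ Real.exp (16 * C) * Real.exp (1 + 2 * L) * Real.exp (-κ * T) := by
            gcongr
        _ = Real.exp (16 * C + (1 + 2 * L) + -κ * T) := by
            rw [Real.exp_add (16 * C + (1 + 2 * L)), Real.exp_add (16 * C)]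
        _ ≤ _ := by
            apply Real.exp_le_exp.2
            have : 16 * C + 1 + 2 * L + 2 * F ≤ (16 * C + 3) * (F ^ 2 + F + L + 1) := by
              nlinarith [mul_nonneg hC.le hF0, mul_nonneg hC.le hL0, mul_nonneg hC.le hFF]
            linarith
    linarith
  · rw [heta]
    have e1 : A ≤ Real.exp A := by
      have := Real.add_one_le_exp A
      linarith
    have e3 : A * Real.exp (-(T ^ 4 / 8)) ≤ Real.exp (-2 * F) * Real.exp (-T) := by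
      calc A * Real.exp (-(T ^ 4 / 8)) ≤ Real.exp A * Real.exp (-(T ^ 4 / 8)) :=
            mul_le_mul_of_nonneg_right e1 (Real.exp_pos _).le
        _ = Real.exp (A + -(T ^ 4 / 8)) := by rw [Real.exp_add]
        _ ≤ Real.exp (-2 * F + -T) := by
            apply Real.exp_le_exp.2
            have a1 : A + 2 * F ≤ (A + 2) * (F ^ 2 + F + L + 1) := by
              nlinarith [mul_nonneg hA0 hF0, mul_nonneg hA0 hL0, mul_nonneg hA0 hFF]
            have a2 : 2 * T ≤ T ^ 4 / 8 := by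
              have : (16 : ℝ) ≤ T ^ 3 := by nlinarith [sq_nonneg T]
              nlinarith
            linarith
        _ = _ := by rw [Real.exp_add]
    have e4 : C * (K * 2 * (m.factorial * Real.exp (-(T ^ 4 / 8))))
        = A * Real.exp (-(T ^ 4 / 8)) / 16 := by
      rw [hA]; ring
    rw [e4]
    linarith

/-- AE Lemma 2.8 on the vertical, with the geometric error and the chart tail absorbed in one eighth
of the margin (text after AE (5.5)); uniform down to the bottom. -/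
theorem geom_absorb (m n Q : ℕ) (hm : 1 ≤ m) (hQ : 1 ≤ Q) (κ Cg : ℝ) (hκ : 0 < κ) :
    ∃ T0 : ℝ, ∀ P : PD m n Q, P.Ok κ Cg → T0 ≤ P.T → ∀ s, P.sb ≤ s → s ≤ P.ρ →
      |P.Adot s - s ^ 2 * (P.Lv s + P.Rv s)| ≤ P.η / 8 * s ^ 2 * (P.tau s + P.d) := by
  obtain ⟨C, hC, hgm⟩ := gauss_mass m n Q Cg
  obtain ⟨K0, T1, hch⟩ := env_chart m n Q κ Cg
  obtain ⟨T2, hr⟩ := envA_rates m Q hQ κ hκ C |K0| hC (abs_nonneg _)
  refine ⟨max T1 T2, fun P h hT s hs1 hs2 => ?_⟩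
  have hc := hch P h ((le_max_left _ _).trans hT)
  obtain ⟨h8, hm3, hρ, hcond, hγ, htail⟩ := hr P.T ((le_max_right _ _).trans hT)
  have hs0 : 0 < s := lt_of_lt_of_le h.sb_pos hs1
  have hsT : s ≤ 1 / P.T ^ 2 := hs2.trans hρ
  have hs1' : s ≤ 1 := by
    refine hsT.trans ?_
    rw [div_le_one (by positivity)]
    nlinarith
  have hV := h.root.hyp.valid
  have g := hgm P.S hV h.root.hyp.Cg_le P.χ 0 P.x 2 1 1 K0 s hc hs0 hs1'
  have e : P.Adot s - s ^ 2 * (P.Lv s + P.Rv s)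
      = s ^ 2 * (P.S.intM Q (kerDot P.χ s P.x) + P.S.Dav P.χ s P.x - P.S.Rav P.χ s P.x) := by
    unfold PD.Adot PD.A PD.Lv PD.Rv PD.Mv Sys.Lav Sys.intL Sys.Mav Sys.Dav
    ring
  rw [e, abs_mul, abs_of_nonneg (sq_nonneg s)]
  have hpm : P.pm s ≤ (1 + P.T ^ 2) * P.tau s + P.d := P.envA_pm_le h h8 hm3 hcond hs1
  have hτ := P.tau_nonneg h s
  have hd := P.d_pos
  have hη := P.η_pos
  have hpm0 := P.pm_nonneg h s
  have hγ1 : C * P.S.γ ≤ C * Real.exp (-κ * P.T) :=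
    mul_le_mul_of_nonneg_left h.root.hyp.geom hC.le
  have hγ2 : C * Real.exp (-κ * P.T) * (1 + P.T ^ 2) ≤ P.η / 16 := hγ
  have hγ3 : C * Real.exp (-κ * P.T) ≤ P.η / 16 := by
    refine le_trans ?_ hγ2
    have : 0 ≤ C * Real.exp (-κ * P.T) := by positivity
    nlinarith [sq_nonneg P.T]
  have b1 : C * P.S.γ * P.pm s ≤ P.η / 16 * (P.tau s + P.d) := by
    calc C * P.S.γ * P.pm s ≤ C * Real.exp (-κ * P.T) * P.pm s :=
          mul_le_mul_of_nonneg_right hγ1 hpm0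
      _ ≤ C * Real.exp (-κ * P.T) * ((1 + P.T ^ 2) * P.tau s + P.d) :=
          mul_le_mul_of_nonneg_left hpm (by positivity)
      _ = (C * Real.exp (-κ * P.T) * (1 + P.T ^ 2)) * P.tau s
            + (C * Real.exp (-κ * P.T)) * P.d := by ring
      _ ≤ P.η / 16 * P.tau s + P.η / 16 * P.d :=
          add_le_add (mul_le_mul_of_nonneg_right hγ2 hτ) (mul_le_mul_of_nonneg_right hγ3 hd.le)
      _ = _ := by ring
  have b2 : C * tailG m K0 s 1 1 ≤ P.η * P.d / 16 := by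
    refine le_trans ?_ htail
    apply mul_le_mul_of_nonneg_left _ hC.le
    rw [tailG_def]
    have t := envA_tail m hs0 h8 hsT
    have t0 : 0 ≤ s ^ (-(m : ℝ)) * Real.exp (-1 ^ 2 / (4 * s ^ 2)) :=
      mul_nonneg (Real.rpow_pos_of_pos hs0 _).le (Real.exp_pos _).le
    calc K0 * (1 + (1 : ℝ)⁻¹) * s ^ (-(m : ℝ)) * Real.exp (-1 ^ 2 / (4 * s ^ 2))
        = K0 * 2 * (s ^ (-(m : ℝ)) * Real.exp (-1 ^ 2 / (4 * s ^ 2))) := by
          norm_num
          ring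
      _ ≤ |K0| * 2 * (s ^ (-(m : ℝ)) * Real.exp (-1 ^ 2 / (4 * s ^ 2))) := by
          apply mul_le_mul_of_nonneg_right _ t0
          linarith [le_abs_self K0]
      _ ≤ _ := mul_le_mul_of_nonneg_left t (by positivity)
  have g' : |P.S.intM Q (kerDot P.χ s P.x) + P.S.Dav P.χ s P.x - P.S.Rav P.χ s P.x|
      ≤ C * P.S.γ * P.pm s + C * tailG m K0 s 1 1 := g
  have fin : |P.S.intM Q (kerDot P.χ s P.x) + P.S.Dav P.χ s P.x - P.S.Rav P.χ s P.x|
      ≤ P.η / 8 * (P.tau s + P.d) := by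
    have : 0 ≤ P.η * P.tau s := by positivity
    nlinarith
  calc s ^ 2 * |P.S.intM Q (kerDot P.χ s P.x) + P.S.Dav P.χ s P.x - P.S.Rav P.χ s P.x|
      ≤ s ^ 2 * (P.η / 8 * (P.tau s + P.d)) := mul_le_mul_of_nonneg_left fin (sq_nonneg s)
    _ = _ := by ring


/-! ### the bank -/

theorem PD.envA_continuousOn_cum {κ Cg : ℝ} (P : PD m n Q) (h : P.Ok κ Cg) :
    ContinuousOn (fun v => v * (P.Lp v - P.η / 2 * (P.tau v + P.d))) (Ioi 0) := by
  intro v hv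
  have h1 := (P.hasDerivAt_fst h hv).continuousAt
  have h2 := (P.hasDerivAt_tau h hv).continuousAt
  have h3 : ContinuousAt (fun v => v * (P.fst v - P.η / 4 * (P.tau v + P.d))) v :=
    continuousAt_id.mul (h1.sub (continuousAt_const.mul (h2.add continuousAt_const)))
  refine (h3.congr (Filter.Eventually.of_forall fun w => ?_)).continuousWithinAt
  show w * (P.fst w - P.η / 4 * (P.tau w + P.d)) = w * (P.Lp w - P.η / 2 * (P.tau w + P.d))
  unfold PD.fst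
  ring

theorem bank (m n Q : ℕ) (hm : 1 ≤ m) (hQ : 1 ≤ Q) (κ Cg : ℝ) (hκ : 0 < κ) :
    ∃ T0 : ℝ, ∀ P : PD m n Q, P.Ok κ Cg → 0 ≤ P.CQ → T0 ≤ P.T → Bank P := by
  obtain ⟨T0, hga⟩ := geom_absorb m n Q hm hQ κ Cg hκ
  refine ⟨T0, fun P h hCQ hT => ?_⟩
  have hga' := hga P h hT
  have hη := P.η_pos
  have hd := P.d_pos
  have hmarg : ∀ v, 0 ≤ P.tau v + P.d := fun v => add_nonneg (P.tau_nonneg h v) hd.le
  have hpos : ∀ s, P.sb ≤ s → 0 < s := fun s hs => lt_of_lt_of_le h.sb_pos hs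
  -- retained
  have hret : ∀ s, P.sb ≤ s → s ≤ P.ρ →
      s ^ 2 * P.Rv s + P.CQ * s ^ 2 * P.Lamv s + P.η / 8 * s ^ 2 * (P.tau s + P.d)
        ≤ P.Adot s - P.Zdot s := by
    intro s hs1 hs2
    have g := (abs_le.1 (hga' s hs1 hs2)).1
    have e : P.Zdot s = s ^ 2 * (P.Lv s - P.CQ * P.Lamv s - P.η / 4 * (P.tau s + P.d)) := rfl
    rw [e]
    nlinarith
  have hret0 : ∀ s, P.sb ≤ s → s ≤ P.ρ → 0 ≤ P.Adot s - P.Zdot s := by
    intro s hs1 hs2
    refine le_trans ?_ (hret s hs1 hs2)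
    have a1 := mul_nonneg (sq_nonneg s) (P.Rv_nonneg h s)
    have a2 := mul_nonneg (mul_nonneg hCQ (sq_nonneg s)) (P.Lamv_nonneg h s)
    have a3 : 0 ≤ P.η / 8 * s ^ 2 * (P.tau s + P.d) :=
      mul_nonneg (mul_nonneg (by positivity) (sq_nonneg s)) (hmarg s)
    linarith
  -- monotonicity of `A - Z`
  have hmono : ∀ s s', P.sb ≤ s → s ≤ s' → s' ≤ P.ρ → P.A s - P.Z s ≤ P.A s' - P.Z s' := by
    intro s s' hs1 hss hs2
    have hder : ∀ v, 0 < v → HasDerivAt (fun v => P.A v - P.Z v) (P.Adot v / v - P.Zdot v / v) v :=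
      fun v hv => (P.hasDerivAt_A h hv).fun_sub (P.hasDerivAt_Z h hv)
    have hmon : MonotoneOn (fun v => P.A v - P.Z v) (Icc P.sb P.ρ) := by
      refine monotoneOn_of_deriv_nonneg (convex_Icc _ _) ?_ ?_ ?_
      · intro v hv
        exact (hder v (hpos v hv.1)).continuousAt.continuousWithinAt
      · intro v hv
        rw [interior_Icc] at hv
        exact (hder v (hpos v hv.1.le)).differentiableAt.differentiableWithinAt
      · intro v hv
        rw [interior_Icc] at hv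
        rw [(hder v (hpos v hv.1.le)).deriv, ← sub_div]
        exact div_nonneg (hret0 v hv.1.le hv.2.le) (hpos v hv.1.le).le
    exact hmon ⟨hs1, hss.trans hs2⟩ ⟨hs1.trans hss, hs2⟩ hss
  have hini := h.ini
  have hAsb : 0 ≤ P.A P.sb := by
    have e : P.Lp P.sb = 2 * P.Mv P.sb - P.Dv P.sb - P.CQ * P.Lamv P.sb := rfl
    have a1 := P.Dv_nonneg h P.sb
    have a2 := mul_nonneg hCQ (P.Lamv_nonneg h P.sb)
    have a3 : 0 ≤ P.η / 2 * (P.tau P.sb + P.d) := mul_nonneg (by positivity) (hmarg _)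
    have : 0 ≤ P.Mv P.sb := by linarith
    exact mul_nonneg (sq_nonneg _) this
  have hZsb : P.Z P.sb = 0 := intervalIntegral.integral_same
  refine
    { Z_nonneg := ?_
      fst_sb := ?_
      A_sb := hAsb
      Z_le_A := ?_
      retained := hret
      mono := hmono
      upper := ?_ }
  · intro s hs1 hs2
    refine (h.cum s hs1 hs2).trans ?_
    refine intervalIntegral.integral_mono_on hs1
      (envA_intervalIntegrable (P.envA_continuousOn_cum h) h.sb_pos (hpos s hs1))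
      (envA_intervalIntegrable (P.envA_continuousOn_fst h) h.sb_pos (hpos s hs1)) ?_
    intro v hv
    have hv0 := hpos v hv.1
    apply mul_le_mul_of_nonneg_left _ hv0.le
    unfold PD.fst
    have := mul_nonneg hη.le (hmarg v)
    linarith
  · unfold PD.fst
    have := mul_nonneg hη.le (hmarg P.sb)
    linarith
  · intro s hs1 hs2
    have := hmono P.sb s le_rfl hs1 hs2
    rw [hZsb] at this
    linarith
  · intro s hs1 hs2
    have g := (abs_le.1 (hga' s hs1 hs2)).2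
    have e : s ^ 2 * P.Lv s = 2 * P.A s - s ^ 2 * P.Dv s := by
      rw [P.Lv_eq]
      unfold PD.A
      ring
    have a1 := mul_nonneg (sq_nonneg s) (P.Dv_nonneg h s)
    nlinarith

end Claimed.Agent.R322.Sx
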