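import Claimed.Agent.R322.Sx.Env.A

/-!
# R322 / Sx / Env / B : elementary calculus of the envelope   [leaf L-Sx-EnvB]

NO almost-everywhere derivative of the envelope `I` is used anywhere in the blueprint.  The "reset
rule" AE (5.7) is replaced by the elementary facts `I_ge_A`, `I_mono` (`I(s)/s^K` is nonincreasing) and
`I_nonreset` (where `A < I`, `I(s)/s^K` is locally constant); comparison arguments use right Dini
derivatives (`I(s') ≥ A(s')` at a reset).

Method: `I(s) = s^K G(s)`, `G(s) = max (sup_{[s, ρ]} g) c_E`, `g(v) = A(v)/v^K` (`PD.I_eq`).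
-/

set_option autoImplicit false
set_option linter.unusedVariables false

namespace Claimed.Agent.R322.Sx

open MeasureTheory Set Metric
open scoped ENNReal NNReal InnerProductSpace Pointwise

variable {m n Q : ℕ}

namespace PD

/-- `g(v) = A(v)/v^K`. -/
noncomputable def gf (P : PD m n Q) (v : ℝ) : ℝ := P.A v / v ^ P.K

/-- the endpoint constant `I_end(s)/s^K`. -/
noncomputable def cE (P : PD m n Q) : ℝ :=
  (P.ρ ^ 2 * P.d * P.ρ ^ (-(2 * (m : ℝ) + 4))) / P.ρ ^ P.K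

/-- `G(s) = I(s)/s^K`. -/
noncomputable def Gf (P : PD m n Q) (s : ℝ) : ℝ := max (sSup (P.gf '' Icc s P.ρ)) P.cE

variable {κ Cg : ℝ} (P : PD m n Q) (h : P.Ok κ Cg)

include h

theorem continuousOn_A : ContinuousOn P.A (Ioi 0) := fun _ hs =>
  (P.hasDerivAt_A h hs).continuousAt.continuousWithinAt

theorem continuousOn_gf : ContinuousOn P.gf (Ioi 0) :=
  (P.continuousOn_A h).div (continuousOn_id.rpow_const fun _ hv => Or.inl (ne_of_gt hv))
    fun _ hv => (Real.rpow_pos_of_pos hv _).ne'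

theorem continuousAt_gf {s : ℝ} (hs : 0 < s) : ContinuousAt P.gf s :=
  (P.continuousOn_gf h).continuousAt (Ioi_mem_nhds hs)

omit h in
theorem Icc_subset_Ioi {s t : ℝ} (hs : 0 < s) : Icc s t ⊆ Ioi (0 : ℝ) := fun _ hv =>
  lt_of_lt_of_le hs hv.1

theorem gf_bdd {s : ℝ} (hs : 0 < s) : BddAbove (P.gf '' Icc s P.ρ) :=
  (isCompact_Icc.image_of_continuousOn ((P.continuousOn_gf h).mono (PD.Icc_subset_Ioi hs))).bddAbove

omit h in
theorem fut_eq {s v : ℝ} (hs : 0 < s) (hv : 0 < v) :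
    (s / v) ^ P.K * P.A v = s ^ P.K * P.gf v := by
  unfold gf
  rw [Real.div_rpow hs.le hv.le]
  ring

theorem Iend_eq {s : ℝ} (hs : 0 < s) : P.Iend s = s ^ P.K * P.cE := by
  unfold Iend cE
  rw [Real.div_rpow hs.le (P.ρ_pos h).le]
  ring

theorem I_eq {s : ℝ} (hs : 0 < s) : P.I s = s ^ P.K * P.Gf s := by
  have hp : 0 < s ^ P.K := Real.rpow_pos_of_pos hs _
  have e : (fun v => (s / v) ^ P.K * P.A v) '' Icc s P.ρ = s ^ P.K • (P.gf '' Icc s P.ρ) := by
    rw [← Set.image_smul, Set.image_image]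
    apply Set.image_congr
    intro v hv
    rw [P.fut_eq hs (lt_of_lt_of_le hs hv.1), smul_eq_mul]
  unfold I Gf
  rw [e, Real.sSup_smul_of_nonneg hp.le, P.Iend_eq h hs, smul_eq_mul, mul_max_of_nonneg _ _ hp.le]

theorem gf_le_Gf {s v : ℝ} (hs : 0 < s) (hv : v ∈ Icc s P.ρ) : P.gf v ≤ P.Gf s :=
  le_max_of_le_left (le_csSup (P.gf_bdd h hs) (mem_image_of_mem _ hv))

omit h in
theorem cE_le_Gf (s : ℝ) : P.cE ≤ P.Gf s := le_max_right _ _

omit h in
theorem Gf_le {s X : ℝ} (hρ : s ≤ P.ρ) (hE : P.cE ≤ X) (hX : ∀ v ∈ Icc s P.ρ, P.gf v ≤ X) :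
    P.Gf s ≤ X := by
  refine max_le (csSup_le ((nonempty_Icc.2 hρ).image _) ?_) hE
  rintro _ ⟨v, hv, rfl⟩
  exact hX v hv

theorem Gf_cases {s : ℝ} (hs : 0 < s) (hρ : s ≤ P.ρ) :
    P.Gf s = P.cE ∨ ∃ v ∈ Icc s P.ρ, P.Gf s = P.gf v := by
  obtain ⟨v, hv, hv'⟩ := isCompact_Icc.exists_sSup_image_eq (nonempty_Icc.2 hρ)
    ((P.continuousOn_gf h).mono (PD.Icc_subset_Ioi hs))
  rcases le_total (sSup (P.gf '' Icc s P.ρ)) P.cE with h1 | h1
  · exact Or.inl (max_eq_right h1)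
  · exact Or.inr ⟨v, hv, (max_eq_left h1).trans hv'⟩

theorem Gf_anti {s s' : ℝ} (hs : 0 < s) (hss : s ≤ s') (hρ : s' ≤ P.ρ) : P.Gf s' ≤ P.Gf s :=
  P.Gf_le hρ (P.cE_le_Gf s) fun _ hv => P.gf_le_Gf h hs ⟨hss.trans hv.1, hv.2⟩

theorem Gf_split {s s' X : ℝ} (hs : 0 < s) (hss : s ≤ s') (hρ : s' ≤ P.ρ) (h1 : P.Gf s' ≤ X)
    (h2 : ∀ v ∈ Icc s s', P.gf v ≤ X) : P.Gf s ≤ X := by
  refine P.Gf_le (hss.trans hρ) ((P.cE_le_Gf s').trans h1) fun v hv => ?_
  rcases le_total v s' with h3 | h3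
  · exact h2 v ⟨hv.1, h3⟩
  · exact (P.gf_le_Gf h (lt_of_lt_of_le hs hss) ⟨h3, hv.2⟩).trans h1

theorem continuousOn_Gf : ContinuousOn P.Gf (Ioc 0 P.ρ) := by
  rw [Metric.continuousOn_iff]
  intro b hb ε hε
  obtain ⟨δ, hδ, hc⟩ := Metric.continuousAt_iff.1 (P.continuousAt_gf h hb.1) (ε / 3) (by positivity)
  refine ⟨δ, hδ, fun a ha hab => ?_⟩
  rw [Real.dist_eq] at hab ⊢
  have hc' : ∀ v, |v - b| < δ → |P.gf v - P.gf b| < ε / 3 := fun v hv => by
    have := hc (x := v) (by rw [Real.dist_eq]; exact hv)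
    rwa [Real.dist_eq] at this
  rcases le_total a b with hle | hle
  · have h1 := P.Gf_anti h ha.1 hle hb.2
    have h2 : P.Gf a ≤ P.Gf b + ε / 3 := by
      refine P.Gf_split h ha.1 hle hb.2 (by linarith) fun v hv => ?_
      have h3 : |v - b| < δ := by
        rw [abs_lt] at hab ⊢
        constructor <;> linarith [hv.1, hv.2]
      have h4 := (abs_lt.1 (hc' v h3)).2
      have h5 := P.gf_le_Gf h hb.1 (left_mem_Icc.2 hb.2)
      linarith
    rw [abs_lt]
    constructor <;> linarith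
  · have h1 := P.Gf_anti h hb.1 hle ha.2
    have h2 : P.Gf b ≤ P.Gf a + 2 * (ε / 3) := by
      refine P.Gf_split h hb.1 hle ha.2 (by linarith) fun v hv => ?_
      have h3 : |v - b| < δ := by
        rw [abs_lt] at hab ⊢
        constructor <;> linarith [hv.1, hv.2]
      have h4 := (abs_lt.1 (hc' v h3)).2
      have h4' := (abs_lt.1 (hc' a hab)).1
      have h5 := P.gf_le_Gf h ha.1 (left_mem_Icc.2 ha.2)
      linarith
    rw [abs_lt]
    constructor <;> linarith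

omit h in
theorem rpow_div_mul {s s' : ℝ} (hs : 0 < s) (hs' : 0 < s') (K X : ℝ) :
    (s' / s) ^ K * (s ^ K * X) = s' ^ K * X := by
  rw [Real.div_rpow hs'.le hs.le]
  have := (Real.rpow_pos_of_pos hs K).ne'
  field_simp

end PD

theorem PD.I_pos {κ Cg : ℝ} (P : PD m n Q) (h : P.Ok κ Cg) {s : ℝ} (hs : 0 < s) : 0 < P.I s := by
  refine lt_of_lt_of_le ?_ (le_max_right _ _)
  unfold PD.Iend
  have h1 := P.ρ_pos h
  have h2 := P.d_pos
  have h3 : 0 < s / P.ρ := div_pos hs h1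
  have h4 := Real.rpow_pos_of_pos h3 P.K
  have h5 := Real.rpow_pos_of_pos h1 (-(2 * (m : ℝ) + 4))
  positivity

theorem PD.I_ge_future {κ Cg : ℝ} (P : PD m n Q) (h : P.Ok κ Cg) {s v : ℝ} (hs : 0 < s)
    (hv : s ≤ v) (hρ : v ≤ P.ρ) : (s / v) ^ P.K * P.A v ≤ P.I s := by
  rw [P.fut_eq hs (lt_of_lt_of_le hs hv), P.I_eq h hs]
  exact mul_le_mul_of_nonneg_left (P.gf_le_Gf h hs ⟨hv, hρ⟩) (Real.rpow_pos_of_pos hs _).le

theorem PD.I_ge_A {κ Cg : ℝ} (P : PD m n Q) (h : P.Ok κ Cg) {s : ℝ} (hs : 0 < s) (hρ : s ≤ P.ρ) :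
    P.A s ≤ P.I s := by
  have := P.I_ge_future h hs le_rfl hρ
  rwa [div_self hs.ne', Real.one_rpow, one_mul] at this

theorem PD.I_ge_end (P : PD m n Q) (s : ℝ) : P.Iend s ≤ P.I s := le_max_right _ _

/-- criterion for upper bounds of the envelope. -/
theorem PD.I_le {κ Cg : ℝ} (P : PD m n Q) (h : P.Ok κ Cg) {s X : ℝ} (hs : 0 < s) (hρ : s ≤ P.ρ)
    (hE : P.Iend s ≤ X) (hX : ∀ v ∈ Icc s P.ρ, (s / v) ^ P.K * P.A v ≤ X) : P.I s ≤ X := by
  refine max_le (csSup_le ((nonempty_Icc.2 hρ).image _) ?_) hE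
  rintro _ ⟨v, hv, rfl⟩
  exact hX v hv

/-- the envelope is attained. -/
theorem PD.I_cases {κ Cg : ℝ} (P : PD m n Q) (h : P.Ok κ Cg) {s : ℝ} (hs : 0 < s) (hρ : s ≤ P.ρ) :
    P.I s = P.Iend s ∨ ∃ v ∈ Icc s P.ρ, P.I s = (s / v) ^ P.K * P.A v := by
  rcases P.Gf_cases h hs hρ with h1 | ⟨v, hv, h1⟩
  · left
    rw [P.I_eq h hs, P.Iend_eq h hs, h1]
  · right
    exact ⟨v, hv, by rw [P.I_eq h hs, P.fut_eq hs (lt_of_lt_of_le hs hv.1), h1]⟩

theorem PD.I_continuousOn {κ Cg : ℝ} (P : PD m n Q) (h : P.Ok κ Cg) :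
    ContinuousOn P.I (Ioc 0 P.ρ) := by
  have h1 : ContinuousOn (fun s => s ^ P.K * P.Gf s) (Ioc 0 P.ρ) :=
    (continuousOn_id.rpow_const fun _ hv => Or.inl (ne_of_gt hv.1)).mul (P.continuousOn_Gf h)
  exact h1.congr fun s hs => P.I_eq h hs.1

/-- `I(s)/s^K` is nonincreasing. -/
theorem PD.I_mono {κ Cg : ℝ} (P : PD m n Q) (h : P.Ok κ Cg) (hK : 0 < P.K) {s s' : ℝ} (hs : 0 < s)
    (hss : s ≤ s') (hρ : s' ≤ P.ρ) : P.I s' ≤ (s' / s) ^ P.K * P.I s := by
  have hs' : 0 < s' := lt_of_lt_of_le hs hss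
  rw [P.I_eq h hs, P.I_eq h hs', PD.rpow_div_mul hs hs']
  exact mul_le_mul_of_nonneg_left (P.Gf_anti h hs hss hρ) (Real.rpow_pos_of_pos hs' _).le

/-- off the reset set `{I = A}` the function `I(s)/s^K` is locally constant. -/
theorem PD.I_nonreset {κ Cg : ℝ} (P : PD m n Q) (h : P.Ok κ Cg) (hK : 0 < P.K) {s : ℝ} (hs : 0 < s)
    (hρ : s < P.ρ) (hne : P.A s < P.I s) :
    ∃ ε : ℝ, 0 < ε ∧ ∀ s', |s' - s| < ε → P.I s' = (s' / s) ^ P.K * P.I s := by
  have hp : 0 < s ^ P.K := Real.rpow_pos_of_pos hs _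
  have hg : P.gf s < P.Gf s := by
    rw [P.I_eq h hs] at hne
    unfold PD.gf
    rw [div_lt_iff₀ hp]
    linarith
  obtain ⟨δ, hδ, hc⟩ := Metric.continuousAt_iff.1 (P.continuousAt_gf h hs) (P.Gf s - P.gf s)
    (by linarith)
  have hc' : ∀ v, |v - s| < δ → P.gf v < P.Gf s := fun v hv => by
    have := hc (x := v) (by rw [Real.dist_eq]; exact hv)
    rw [Real.dist_eq] at this
    linarith [(abs_lt.1 this).2]
  refine ⟨min δ (min s (P.ρ - s)), lt_min hδ (lt_min hs (by linarith)), fun s' hs' => ?_⟩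
  have h1 : |s' - s| < δ := lt_of_lt_of_le hs' (min_le_left _ _)
  have h2 : |s' - s| < s := lt_of_lt_of_le hs' ((min_le_right _ _).trans (min_le_left _ _))
  have h3 : |s' - s| < P.ρ - s := lt_of_lt_of_le hs' ((min_le_right _ _).trans (min_le_right _ _))
  have hs'0 : 0 < s' := by linarith [(abs_lt.1 h2).1]
  have hs'ρ : s' ≤ P.ρ := by linarith [(abs_lt.1 h3).2]
  have key : P.Gf s' = P.Gf s := by
    rcases le_total s' s with hle | hle
    · apply le_antisymm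
      · refine P.Gf_split h hs'0 hle hρ.le le_rfl fun v hv => (hc' v ?_).le
        rw [abs_lt] at h1 ⊢
        constructor <;> linarith [hv.1, hv.2]
      · exact P.Gf_anti h hs'0 hle hρ.le
    · apply le_antisymm
      · exact P.Gf_anti h hs hle hs'ρ
      · rcases P.Gf_cases h hs hρ.le with h4 | ⟨v, hv, h4⟩
        · rw [h4]
          exact P.cE_le_Gf s'
        · rcases le_total v s' with h5 | h5
          · exfalso
            have : P.gf v < P.Gf s := hc' v (by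
              rw [abs_lt] at h1 ⊢
              constructor <;> linarith [hv.1])
            linarith
          · rw [h4]
            exact P.gf_le_Gf h hs'0 ⟨h5, hv.2⟩
  rw [P.I_eq h hs, P.I_eq h hs'0, PD.rpow_div_mul hs hs'0, key]

/-- AE (6.5): history of the envelope. -/
theorem PD.I_history {κ Cg : ℝ} (P : PD m n Q) (h : P.Ok κ Cg) (hK : 0 < P.K) {u t : ℝ} (hu : 0 < u)
    (hut : u ≤ t) (hρ : t ≤ P.ρ) :
    P.I u ≤ max (P.I t) (sSup (P.A '' Icc u t)) := by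
  have ht : 0 < t := lt_of_lt_of_le hu hut
  have hIt := P.I_pos h ht
  have hbdd : BddAbove (P.A '' Icc u t) :=
    (isCompact_Icc.image_of_continuousOn
      ((P.continuousOn_A h).mono (PD.Icc_subset_Ioi hu))).bddAbove
  refine P.I_le h hu (hut.trans hρ) ?_ fun v hv => ?_
  · refine le_max_of_le_left (le_trans ?_ (P.I_ge_end t))
    rw [P.Iend_eq h hu, P.Iend_eq h ht]
    have hc : 0 ≤ P.cE := by
      unfold PD.cE
      have h1 := P.ρ_pos h
      have h2 := P.d_pos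
      have h4 := Real.rpow_pos_of_pos h1 P.K
      have h5 := Real.rpow_pos_of_pos h1 (-(2 * (m : ℝ) + 4))
      positivity
    exact mul_le_mul_of_nonneg_right (Real.rpow_le_rpow hu.le hut hK.le) hc
  · have hv0 : 0 < v := lt_of_lt_of_le hu hv.1
    have hp : 0 ≤ (u / v) ^ P.K := (Real.rpow_pos_of_pos (div_pos hu hv0) _).le
    rcases le_total (P.A v) 0 with hA | hA
    · exact le_max_of_le_left ((mul_nonpos_of_nonneg_of_nonpos hp hA).trans hIt.le)
    · rcases le_total v t with hvt | hvt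
      · refine le_max_of_le_right (le_trans ?_ (le_csSup hbdd (mem_image_of_mem _ ⟨hv.1, hvt⟩)))
        have h1 : (u / v) ^ P.K ≤ 1 :=
          Real.rpow_le_one (div_pos hu hv0).le ((div_le_one hv0).2 hv.1) hK.le
        nlinarith
      · refine le_max_of_le_left (le_trans ?_ (P.I_ge_future h ht hvt hv.2))
        refine mul_le_mul_of_nonneg_right (Real.rpow_le_rpow (div_pos hu hv0).le ?_ hK.le) hA
        exact div_le_div_of_nonneg_right hut hv0.le

/-! ### mean value inequalities in logarithmic scale -/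

/-- if `f' = g/r` and `g ≤ M` on `[p, q]` then `f q - f p ≤ M log (q/p)`. -/
theorem env_mv_le {f g : ℝ → ℝ} (hf : ∀ r, 0 < r → HasDerivAt f (g r / r) r) {p q M : ℝ}
    (hp : 0 < p) (hpq : p ≤ q) (hM : ∀ r ∈ Icc p q, g r ≤ M) :
    f q - f p ≤ M * Real.log (q / p) := by
  have hq : 0 < q := lt_of_lt_of_le hp hpq
  have hd : ∀ t : ℝ, HasDerivAt (fun t => f (Real.exp t)) (g (Real.exp t)) t := fun t => by
    have h1 := (hf (Real.exp t) (Real.exp_pos t)).comp t (Real.hasDerivAt_exp t)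
    have h2 : g (Real.exp t) / Real.exp t * Real.exp t = g (Real.exp t) := by
      field_simp
    rw [h2] at h1
    exact h1
  have hlog : Real.log p ≤ Real.log q := Real.log_le_log hp hpq
  have key := Convex.image_sub_le_mul_sub_of_deriv_le (convex_Icc (Real.log p) (Real.log q))
    (f := fun t => f (Real.exp t)) (fun t _ => (hd t).continuousAt.continuousWithinAt)
    (fun t _ => (hd t).differentiableAt.differentiableWithinAt) (C := M)
    (fun t ht => by
      rw [(hd t).deriv]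
      rw [interior_Icc] at ht
      refine hM _ ⟨?_, ?_⟩
      · rw [← Real.exp_log hp]
        exact Real.exp_le_exp.2 ht.1.le
      · rw [← Real.exp_log hq]
        exact Real.exp_le_exp.2 ht.2.le)
    (Real.log p) (left_mem_Icc.2 hlog) (Real.log q) (right_mem_Icc.2 hlog) hlog
  simp only [Real.exp_log hp, Real.exp_log hq] at key
  rwa [Real.log_div hq.ne' hp.ne']

/-- if `f' = g/r` and `|g| ≤ M` on `[p, q]` then `|f q - f p| ≤ M log (q/p)`. -/
theorem env_mv {f g : ℝ → ℝ} (hf : ∀ r, 0 < r → HasDerivAt f (g r / r) r) {p q M : ℝ}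
    (hp : 0 < p) (hpq : p ≤ q) (hM : ∀ r ∈ Icc p q, |g r| ≤ M) :
    |f q - f p| ≤ M * Real.log (q / p) := by
  have h1 := env_mv_le hf hp hpq fun r hr => (le_abs_self _).trans (hM r hr)
  have h2 := env_mv_le (f := fun r => -f r) (g := fun r => -g r)
    (fun r hr => by
      have := (hf r hr).neg
      rwa [← neg_div] at this) hp hpq fun r hr => (neg_le_abs _).trans (hM r hr)
  rw [abs_le]
  constructor <;> linarith

/-! ### the level -/

theorem PD.exp_neg_a {κ Cg : ℝ} (P : PD m n Q) (h : P.Ok κ Cg) {s : ℝ} (hs : 0 < s) :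
    s ^ 2 * Real.exp (-P.a s) = P.I s := by
  have hI := P.I_pos h hs
  unfold PD.a
  rw [Real.exp_neg, Real.exp_log (by positivity)]
  field_simp

/-- `a(s) ≤ c` iff `s² e^{-c} ≤ I(s)`. -/
theorem PD.a_le_iff {κ Cg : ℝ} (P : PD m n Q) (h : P.Ok κ Cg) {s : ℝ} (hs : 0 < s) (c : ℝ) :
    P.a s ≤ c ↔ s ^ 2 * Real.exp (-c) ≤ P.I s := by
  rw [← P.exp_neg_a h hs, mul_le_mul_iff_right₀ (by positivity), Real.exp_le_exp]
  constructor <;> intro h1 <;> linarith

/-- `c ≤ a(s)` iff `I(s) ≤ s² e^{-c}`. -/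
theorem PD.le_a_iff {κ Cg : ℝ} (P : PD m n Q) (h : P.Ok κ Cg) {s : ℝ} (hs : 0 < s) (c : ℝ) :
    c ≤ P.a s ↔ P.I s ≤ s ^ 2 * Real.exp (-c) := by
  rw [← P.exp_neg_a h hs, mul_le_mul_iff_right₀ (by positivity), Real.exp_le_exp]
  constructor <;> intro h1 <;> linarith

end Claimed.Agent.R322.Sx
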