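import Claimed.Agent.R322.Sx.Env.C2

/-!
# R322 / Sx / Env / C1 : `env_max`, `env_dil`   [leaf L-Sx-EnvC1]
-/

set_option autoImplicit false
set_option linter.unusedVariables false

namespace Claimed.Agent.R322.Sx

open MeasureTheory Set Metric
open scoped ENNReal NNReal InnerProductSpace

variable {m n Q : ℕ}

/-! ### rates and small lemmas -/

/-- `d ρ^{-2m-4} < e^{-T/2}` for large `T`. -/
theorem env_end_rate (m Q : ℕ) (hQ : 1 ≤ Q) :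
    ∃ T0 : ℝ, 1 ≤ T0 ∧ ∀ T, T0 ≤ T →
      Real.exp (-T) * rhoT Q T ^ (-(2 * (m : ℝ) + 4)) < Real.exp (-T / 2) := by
  have hm0 : (0 : ℝ) ≤ m := Nat.cast_nonneg m
  obtain ⟨T0, hT0, h⟩ := env_rate Q hQ ((2 * (m : ℝ) + 4) * 8) (1 / 4) (by norm_num)
  refine ⟨T0, hT0, fun T hT => ?_⟩
  have hT1 : 1 ≤ T := hT0.trans hT
  have hTp : 0 < T := by linarith
  have hl := Real.log_nonneg hT1
  have hF := FQ_nonneg Q T
  rw [Real.rpow_def_of_pos (cmpl_rhoT_pos Q hTp), cmpl_log_rhoT Q hTp, ← Real.exp_add,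
    Real.exp_lt_exp]
  have h1 := h T hT
  have h2 : (2 * (m : ℝ) + 4) * (8 * FQ Q T + 2 * Real.log T)
      ≤ (2 * (m : ℝ) + 4) * 8 * (FQ Q T ^ 2 + FQ Q T + Real.log T + 1) := by
    have : 8 * FQ Q T + 2 * Real.log T ≤ 8 * (FQ Q T ^ 2 + FQ Q T + Real.log T + 1) := by
      nlinarith [sq_nonneg (FQ Q T)]
    calc _ ≤ (2 * (m : ℝ) + 4) * (8 * (FQ Q T ^ 2 + FQ Q T + Real.log T + 1)) :=
          mul_le_mul_of_nonneg_left this (by positivity)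
      _ = _ := by ring
  nlinarith

/-- `a0 + C < T/2` for large `T`. -/
theorem env_a0_rate (Q : ℕ) (hQ : 1 ≤ Q) (C : ℝ) :
    ∃ T0 : ℝ, 1 ≤ T0 ∧ ∀ T, T0 ≤ T → a0T Q T + C < T / 2 := by
  obtain ⟨T0, hT0, h⟩ := env_rate Q hQ (|C| + 1) (1 / 4) (by norm_num)
  refine ⟨T0, hT0, fun T hT => ?_⟩
  have hT1 : 1 ≤ T := hT0.trans hT
  have hl := Real.log_nonneg hT1
  have hF := FQ_nonneg Q T
  have h1 := h T hT
  have hC := le_abs_self C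
  have hC0 := abs_nonneg C
  unfold a0T
  have h2 : FQ Q T ^ 2 + C ≤ (|C| + 1) * (FQ Q T ^ 2 + FQ Q T + Real.log T + 1) := by
    nlinarith [sq_nonneg (FQ Q T), mul_nonneg hC0 (sq_nonneg (FQ Q T)), mul_nonneg hC0 hF,
      mul_nonneg hC0 hl]
  linarith

/-- for `x ∈ (0, 1]` and `K ≥ 2`: `x^K ≤ x²`. -/
theorem env_rpow_le_sq {x K : ℝ} (hx : 0 < x) (hx1 : x ≤ 1) (hK : 2 ≤ K) : x ^ K ≤ x ^ 2 := by
  rw [← Real.rpow_two]
  exact Real.rpow_le_rpow_of_exponent_ge hx hx1 hK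

/-- `(s/v)^K v² ≤ s²` for `s ≤ v`, `K ≥ 2`. -/
theorem env_weight_le {s v K : ℝ} (hs : 0 < s) (hv : s ≤ v) (hK : 2 ≤ K) :
    (s / v) ^ K * v ^ 2 ≤ s ^ 2 := by
  have hv0 : 0 < v := lt_of_lt_of_le hs hv
  have h1 := env_rpow_le_sq (div_pos hs hv0) ((div_le_one hv0).2 hv) hK
  calc (s / v) ^ K * v ^ 2 ≤ (s / v) ^ 2 * v ^ 2 := mul_le_mul_of_nonneg_right h1 (sq_nonneg v)
    _ = s ^ 2 := by field_simp

theorem env_rpow_inv {s v : ℝ} (hs : 0 < s) (hv : 0 < v) (K : ℝ) :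
    (v / s) ^ K * (s / v) ^ K = 1 := by
  rw [← Real.mul_rpow (div_pos hv hs).le (div_pos hs hv).le]
  have : v / s * (s / v) = 1 := by field_simp
  rw [this, Real.one_rpow]

/-- a scale with `τ_v ≥ e^{-T/2}` is small. -/
theorem PD.small_of_tau_ge {κ Cg : ℝ} (P : PD m n Q) (h : P.Ok κ Cg) (hm : 1 ≤ m) (hT : 0 ≤ P.T)
    {v : ℝ} (hv : 0 < v) (hτ : Real.exp (-P.T / 2) ≤ P.tau v) : v ≤ Real.exp (-P.T / (4 * m)) := by
  have hm0 : (1 : ℝ) ≤ m := by exact_mod_cast hm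
  have h1 := hτ.trans (P.tau_le_total h hv)
  rw [Real.rpow_def_of_pos hv, ← Real.exp_add, Real.exp_le_exp] at h1
  rw [← Real.log_le_iff_le_exp hv]
  have h2 : (m : ℝ) * Real.log v ≤ -P.T / 2 := by linarith
  have h3 : -P.T / (4 * m) = (-P.T / 4) / m := by
    field_simp
  rw [h3, le_div_iff₀ (by linarith)]
  linarith

theorem PD.continuousOn_tau {κ Cg : ℝ} (P : PD m n Q) (h : P.Ok κ Cg) :
    ContinuousOn P.tau (Ioi 0) := fun _ hs =>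
  (P.hasDerivAt_tau h hs).continuousAt.continuousWithinAt

/-- the artificial endpoint term: `I_end(s) ≤ s² d ρ^{-2m-4}`. -/
theorem PD.Iend_le {κ Cg : ℝ} (P : PD m n Q) (h : P.Ok κ Cg) (hK : 2 ≤ P.K) {s : ℝ} (hs : 0 < s)
    (hρ : s ≤ P.ρ) : P.Iend s ≤ s ^ 2 * (P.d * P.ρ ^ (-(2 * (m : ℝ) + 4))) := by
  have h1 := env_weight_le hs hρ hK
  have h2 : 0 ≤ P.d * P.ρ ^ (-(2 * (m : ℝ) + 4)) :=
    mul_nonneg P.d_pos.le (Real.rpow_nonneg (P.ρ_pos h).le _)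
  unfold PD.Iend
  calc (s / P.ρ) ^ P.K * (P.ρ ^ 2 * P.d * P.ρ ^ (-(2 * (m : ℝ) + 4)))
      = ((s / P.ρ) ^ P.K * P.ρ ^ 2) * (P.d * P.ρ ^ (-(2 * (m : ℝ) + 4))) := by ring
    _ ≤ _ := mul_le_mul_of_nonneg_right h1 h2

/-- Step 1 (AE (5.9)): a maximiser `v` of the weighted future `τ`-average
`J_τ(s) = sup_{s ≤ t ≤ ρ} (s/t)^K t² τ_t` is a controlled scale with density `τ_v`, provided
`J_τ(s) ≥ s² e^{-T/2}`.  Room: `τ_v ≤ C v^{-m} e^{-T}` and `τ_v ≥ e^{-T/2}` force `v T⁵ ≤ ρ`. -/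
theorem env_max (m n Q : ℕ) (hm : 1 ≤ m) (hQ : 1 ≤ Q) (κ Cg K : ℝ) (hK : 2 * (m : ℝ) + 100 < K) :
    ∃ T0 : ℝ, ∀ P : PD m n Q, P.Ok κ Cg → T0 ≤ P.T → ∀ s, P.sb ≤ s → s ≤ P.ρ →
      (∃ t, s ≤ t ∧ t ≤ P.ρ ∧ s ^ 2 * Real.exp (-P.T / 2) ≤ (s / t) ^ K * (t ^ 2 * P.tau t)) →
      ∃ v, s ≤ v ∧ v * P.T ^ 5 ≤ P.ρ ∧ P.Ctl 1 (K - 2) v (P.tau v) ∧
        ∀ t, s ≤ t → t ≤ P.ρ → (s / t) ^ K * (t ^ 2 * P.tau t) ≤ (s / v) ^ K * (v ^ 2 * P.tau v) := by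
  have hm0 : (0 : ℝ) ≤ m := Nat.cast_nonneg m
  have hK2 : 2 ≤ K := by linarith
  obtain ⟨T5, hT5, h5⟩ := env_room m Q 5 hm hQ
  refine ⟨T5, fun P h hT s hsb hsρ ⟨t0, ht0, ht0ρ, hbig⟩ => ?_⟩
  have hT1 : 1 ≤ P.T := hT5.trans hT
  have hs : 0 < s := lt_of_lt_of_le h.sb_pos hsb
  have hcont : ContinuousOn (fun t => (s / t) ^ K * (t ^ 2 * P.tau t)) (Icc s P.ρ) := by
    have hsub : Icc s P.ρ ⊆ Ioi (0 : ℝ) := PD.Icc_subset_Ioi hs
    refine ContinuousOn.mul ?_ ((continuousOn_id.pow 2).mul ((P.continuousOn_tau h).mono hsub))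
    refine ContinuousOn.rpow_const (continuousOn_const.div continuousOn_id
      fun t ht => (hsub ht).ne') fun t ht => Or.inl (div_pos hs (hsub ht)).ne'
  obtain ⟨v, hv, hmax⟩ := isCompact_Icc.exists_isMaxOn (nonempty_Icc.2 hsρ) hcont
  have hmax' : ∀ t, s ≤ t → t ≤ P.ρ →
      (s / t) ^ K * (t ^ 2 * P.tau t) ≤ (s / v) ^ K * (v ^ 2 * P.tau v) := fun t h1 h2 =>
    hmax ⟨h1, h2⟩
  have hv0 : 0 < v := lt_of_lt_of_le hs hv.1
  have hτ0 := P.tau_nonneg h v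
  have hge : Real.exp (-P.T / 2) ≤ P.tau v := by
    have h1 := hbig.trans (hmax' t0 ht0 ht0ρ)
    have h2 : (s / v) ^ K * (v ^ 2 * P.tau v) ≤ s ^ 2 * P.tau v := by
      rw [← mul_assoc]
      exact mul_le_mul_of_nonneg_right (env_weight_le hs hv.1 hK2) hτ0
    exact le_of_mul_le_mul_left (h1.trans h2) (by positivity)
  have hsmall := P.small_of_tau_ge h hm (by linarith) hv0 hge
  have hroom5 : v * P.T ^ 5 ≤ P.ρ :=
    (mul_le_mul_of_nonneg_right hsmall (by positivity)).trans (h5 P.T hT)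
  refine ⟨v, hv.1, hroom5, ⟨hv0, ?_, fun t hvt htρ => ?_, ?_, hge⟩, hmax'⟩
  · refine le_trans (mul_le_mul_of_nonneg_left ?_ hv0.le) hroom5
    exact pow_le_pow_right₀ hT1 (by norm_num)
  · have ht : 0 < t := lt_of_lt_of_le hv0 hvt
    have h1 := hmax' t (hv.1.trans hvt) htρ
    have e1 : (s / v) ^ K = (s / t) ^ K * (t / v) ^ K := by
      rw [← Real.mul_rpow (div_pos hs ht).le (div_pos ht hv0).le]
      congr 1
      field_simp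
    rw [e1, mul_assoc] at h1
    have h2 := le_of_mul_le_mul_left h1 (Real.rpow_pos_of_pos (div_pos hs ht) K)
    have hx : 0 < t / v := div_pos ht hv0
    have e : (t / v) ^ (K - 2) = (t / v) ^ K / (t / v) ^ 2 := by
      rw [Real.rpow_sub hx, Real.rpow_two]
    rw [one_mul, e]
    have h3 : (t / v) ^ K / (t / v) ^ 2 * P.tau v = ((t / v) ^ K * (v ^ 2 * P.tau v)) / t ^ 2 := by
      field_simp
    rw [h3, le_div_iff₀ (by positivity)]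
    linarith
  · rw [one_mul]
    exact h.thr v (hsb.trans hv.1) hv.2

/-- Step 3: the dilation bound AE (5.6) at `s0` and at every scale with `I(s) ≥ s² e^{-T/2}`. -/
theorem env_dil (m n Q : ℕ) (hm : 1 ≤ m) (hQ : 1 ≤ Q) (κ Cg : ℝ) (hκ : 0 < κ) (K CQ : ℝ)
    (hK : 2 * (m : ℝ) + 100 < K) (hCQ : 1 ≤ CQ) :
    ∃ C T0 : ℝ, 0 < C ∧ ∀ P : PD m n Q, P.K = K → P.CQ = CQ → P.Ok κ Cg → Bank P → T0 ≤ P.T →
      ∀ s, P.sb ≤ s → s ≤ P.ρ → (s = P.s0 ∨ s ^ 2 * Real.exp (-P.T / 2) ≤ P.I s) →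
      ∀ v, s ≤ v → v ≤ P.ρ → v ^ 2 * P.tau v ≤ C * (v / s) ^ K * P.I s := by
  have hm0 : (0 : ℝ) ≤ m := Nat.cast_nonneg m
  have hK2 : 2 ≤ K := by linarith
  obtain ⟨T1, h1⟩ := env_max m n Q hm hQ κ Cg K hK
  obtain ⟨ε, T2, hε, h2⟩ := env_lower m n Q hm hQ κ Cg hκ K CQ hK hCQ
  obtain ⟨T3, hT3, h3⟩ := env_end_rate m Q hQ
  obtain ⟨T4, hT4, h4⟩ := env_a0_rate Q hQ 0
  refine ⟨1 / ε, max (max T1 T2) (max T3 T4), by positivity,
    fun P hPK hPC h hB hT s hsb hsρ hcase v hv hvρ => ?_⟩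
  have t1 : T1 ≤ P.T := ((le_max_left _ _).trans (le_max_left _ _)).trans hT
  have t2 : T2 ≤ P.T := ((le_max_right _ _).trans (le_max_left _ _)).trans hT
  have t3 : T3 ≤ P.T := ((le_max_left _ _).trans (le_max_right _ _)).trans hT
  have t4 : T4 ≤ P.T := ((le_max_right _ _).trans (le_max_right _ _)).trans hT
  have hs : 0 < s := lt_of_lt_of_le h.sb_pos hsb
  have hv0 : 0 < v := lt_of_lt_of_le hs hv
  have hyp : ∃ t, s ≤ t ∧ t ≤ P.ρ ∧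
      s ^ 2 * Real.exp (-P.T / 2) ≤ (s / t) ^ K * (t ^ 2 * P.tau t) := by
    rcases hcase with rfl | hI
    · refine ⟨P.s0, le_rfl, hsρ, ?_⟩
      rw [div_self hs.ne', Real.one_rpow, one_mul, h.thr_eq]
      refine mul_le_mul_of_nonneg_left (Real.exp_le_exp.2 ?_) (sq_nonneg _)
      have := h4 P.T t4
      linarith
    · rcases P.I_cases h hs hsρ with hc | ⟨t, ht, hc⟩
      · exfalso
        have a1 := P.Iend_le h (by rw [hPK]; exact hK2) hs hsρ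
        have a2 : P.d * P.ρ ^ (-(2 * (m : ℝ) + 4)) < Real.exp (-P.T / 2) := h3 P.T t3
        have a3 : s ^ 2 * (P.d * P.ρ ^ (-(2 * (m : ℝ) + 4))) < s ^ 2 * Real.exp (-P.T / 2) :=
          mul_lt_mul_of_pos_left a2 (by positivity)
        rw [hc] at hI
        linarith
      · refine ⟨t, ht.1, ht.2, hI.trans ?_⟩
        rw [hc, hPK]
        exact mul_le_mul_of_nonneg_left (P.A_le h t)
          (Real.rpow_nonneg (div_nonneg hs.le (hs.le.trans ht.1)) _)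
  obtain ⟨v0, hv0s, hroom, hctl, hmax⟩ := h1 P h t1 s hsb hsρ hyp
  have hlow := h2 P hPC h hB t2 v0 (hsb.trans hv0s) hroom hctl
  have hv0ρ : v0 ≤ P.ρ := by
    have hT1 : 1 ≤ P.T := hT3.trans t3
    have : v0 * 1 ≤ v0 * P.T ^ 5 :=
      mul_le_mul_of_nonneg_left (one_le_pow₀ hT1) hctl.v_pos.le
    linarith
  have hfut := P.I_ge_future h hs hv0s hv0ρ
  rw [hPK] at hfut
  have hp0 : 0 ≤ (s / v0) ^ K := Real.rpow_nonneg (div_nonneg hs.le hctl.v_pos.le) _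
  have hchain : (s / v) ^ K * (v ^ 2 * P.tau v) ≤ 1 / ε * P.I s := by
    calc (s / v) ^ K * (v ^ 2 * P.tau v) ≤ (s / v0) ^ K * (v0 ^ 2 * P.tau v0) := hmax v hv hvρ
      _ = 1 / ε * ((s / v0) ^ K * (ε * (v0 ^ 2 * P.tau v0))) := by field_simp
      _ ≤ 1 / ε * ((s / v0) ^ K * P.A v0) :=
          mul_le_mul_of_nonneg_left (mul_le_mul_of_nonneg_left hlow hp0) (by positivity)
      _ ≤ 1 / ε * P.I s := mul_le_mul_of_nonneg_left hfut (by positivity)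
  have hq : 0 ≤ (v / s) ^ K := Real.rpow_nonneg (div_nonneg hv0.le hs.le) _
  calc v ^ 2 * P.tau v = ((v / s) ^ K * (s / v) ^ K) * (v ^ 2 * P.tau v) := by
        rw [env_rpow_inv hs hv0, one_mul]
    _ = (v / s) ^ K * ((s / v) ^ K * (v ^ 2 * P.tau v)) := by ring
    _ ≤ (v / s) ^ K * (1 / ε * P.I s) := mul_le_mul_of_nonneg_left hchain hq
    _ = _ := by ring

end Claimed.Agent.R322.Sx
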