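import Claimed.Agent.R322.Sx.Env.B

/-!
# R322 / Sx / Env / C2 : `env_lower`   [leaf L-Sx-EnvC2]

PLAN (all constants explicit).  `δ = τ_v > 0` (`Ctl.δ_ge`).
1. `ctl_wscalar` (`K1 = 1`, `J = K - 2`, `Pe = 1`): `|M|_v ≤ C0 (D_v + Λ_v) + (lev δ)^{-1} δ`, and `lev δ ≥ a0 = F² → ∞` (`δ ≤ d_*`), so
   `(lev δ)^{-1} ≤ 1/2` for `T` large; with `h.tau_eq`: `τ_v ≤ 2 (C0 + 1) (D_v + Λ_v)`.
2. Suppose `A v < ε v² τ_v`, i.e. `M_v < ε τ_v`.  `P.fst_eq`, `C_Q ≥ 1`, `η (τ + d) ≥ 0`: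
   `fst v ≤ 2 ε τ_v - (D_v + Λ_v) ≤ - c τ_v`,  `c = 1/(4 (C0 + 1))`, if `ε ≤ c/2 · …`.
3. for `r ∈ [v, e v]`: `PD.Ctl.dilate` (`lam = e`; room `r T⁴ ≤ e v T⁴ ≤ v T⁵ ≤ ρ` for `T ≥ e`) and `ctl_poly` (`j = 1`, `K1 = e^{K-2}`): `P.pm r ≤ C1 δ`;
   `h.abs_fstDot_le`: `|fstDot r| ≤ (3 + C_Q)(m + 1) C1 δ =: C2 δ`.   `PD.hasDerivAt_fst`: `fst' = fstDot / r`.
   Mean value inequality in `log r`: `fst r ≤ fst v + C2 δ log (r/v) ≤ - (c/2) δ` for `r ≤ e^ϑ v`, `ϑ = min 1 (c/(2 C2))`.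
4. `PD.hasDerivAt_Z`: `Z' = r fst r`;  `Z(e^ϑ v) ≤ Z(v) - (c/2) δ (e^{2ϑ} - 1) v²/2 ≤ A(v) - (c ϑ/2) v² δ` (`Bank.Z_le_A`), and `Z(e^ϑ v) ≥ 0`
   (`Bank.Z_nonneg`, `e^ϑ v ≤ ρ`).  So `A(v) ≥ (c ϑ/2) v² δ`;  `ε := min (…) (c ϑ/2)`.
-/

set_option autoImplicit false
set_option linter.unusedVariables false

namespace Claimed.Agent.R322.Sx

open MeasureTheory Set Metric
open scoped ENNReal NNReal InnerProductSpace

variable {m n Q : ℕ}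

/-- arithmetic of step 1 of `env_lower`. -/
theorem env_lower_aux1 {C0 δ aM D Λ x : ℝ} (hC0 : 0 < C0) (hδ : 0 ≤ δ) (hx : x ≤ 1 / 2)
    (hsc : aM ≤ C0 * (D + Λ) + x * δ) (hτ : δ = aM + D + Λ) :
    2 * (1 / (4 * (C0 + 1))) * δ ≤ D + Λ := by
  have a1 : x * δ ≤ 1 / 2 * δ := mul_le_mul_of_nonneg_right hx hδ
  have a2 : δ ≤ 2 * (C0 + 1) * (D + Λ) := by
    have : 2 * (C0 + 1) * (D + Λ) = 2 * (C0 * (D + Λ)) + 2 * (D + Λ) := by ring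
    rw [this]
    linarith
  have a3 : 2 * (1 / (4 * (C0 + 1))) * δ = δ / (2 * (C0 + 1)) := by
    field_simp
    ring
  rw [a3, div_le_iff₀ (by positivity)]
  linarith

/-- arithmetic of step 2 of `env_lower`. -/
theorem env_lower_aux2 {c ϑ δ M D Λ CQ E : ℝ} (hc : 0 < c) (hϑ0 : 0 < ϑ) (hϑ1 : ϑ ≤ 1)
    (hδ : 0 < δ) (hCQ : 1 ≤ CQ) (hΛ : 0 ≤ Λ) (hE : 0 ≤ E) (hM : M < c * ϑ / 2 * δ)
    (hDL : 2 * c * δ ≤ D + Λ) : 2 * M - D - CQ * Λ - E ≤ -c * δ := by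
  have a2 : Λ ≤ CQ * Λ := le_mul_of_one_le_left hΛ hCQ
  have a3 : c * ϑ / 2 * δ ≤ c / 2 * δ := by
    apply mul_le_mul_of_nonneg_right _ hδ.le
    have : c * ϑ ≤ c * 1 := mul_le_mul_of_nonneg_left hϑ1 hc.le
    linarith
  linarith

/-- arithmetic of step 4 of `env_lower`. -/
theorem env_lower_aux4 {c ϑ δ v Zq Zv Av : ℝ} (hZ : Zq - Zv ≤ -(c / 2) * δ * v ^ 2 * ϑ)
    (hZq : 0 ≤ Zq) (hZv : Zv ≤ Av) (hA : Av < c * ϑ / 2 * (v ^ 2 * δ)) : False := by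
  have : -(c / 2) * δ * v ^ 2 * ϑ = -(c * ϑ / 2 * (v ^ 2 * δ)) := by ring
  rw [this] at hZ
  linarith

/-- Step 2: at such a scale `A(v) ≥ ε v² τ_v`.  Otherwise `(f_*)_v ≤ -c τ_v` (`ctl_wscalar`,
`C_Q ≥ 1`), `|d (f_*)_r / d log r| ≤ C τ_v` on `[v, e v]` (`ctl_poly` at the dilated scales,
`PD.Ctl.dilate`), so `Z` would become negative on `[v, e^ϑ v]` (`Z ≤ A`, `Z ≥ 0`). -/
theorem env_lower (m n Q : ℕ) (hm : 1 ≤ m) (hQ : 1 ≤ Q) (κ Cg : ℝ) (hκ : 0 < κ) (K CQ : ℝ)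
    (hK : 2 * (m : ℝ) + 100 < K) (hCQ : 1 ≤ CQ) :
    ∃ ε T0 : ℝ, 0 < ε ∧ ∀ P : PD m n Q, P.CQ = CQ → P.Ok κ Cg → Bank P → T0 ≤ P.T →
      ∀ v, P.sb ≤ v → v * P.T ^ 5 ≤ P.ρ → P.Ctl 1 (K - 2) v (P.tau v) →
      ε * (v ^ 2 * P.tau v) ≤ P.A v := by
  have hm0 : (0 : ℝ) ≤ m := Nat.cast_nonneg m
  have hJ : 0 ≤ K - 2 := by linarith
  obtain ⟨C0, hC0, hws⟩ := ctl_wscalar m n Q hm hQ κ Cg hκ
  obtain ⟨T1, h1⟩ := hws 1 (K - 2) 1 le_rfl hJ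
  have hK1' : 1 ≤ 1 * Real.exp 1 ^ (K - 2) := by
    rw [one_mul]
    exact Real.one_le_rpow (Real.one_le_exp zero_le_one) hJ
  obtain ⟨C1, T2, hC1, h2⟩ := ctl_poly m n Q hm hQ κ Cg (1 * Real.exp 1 ^ (K - 2)) (K - 2) hK1' hJ 1
  obtain ⟨T3, h3⟩ := Filter.eventually_atTop.1 (cmpl_rate_F Q 2)
  set c : ℝ := 1 / (4 * (C0 + 1)) with hc
  have hc0 : 0 < c := by positivity
  set C2 : ℝ := (3 + CQ) * (((m : ℝ) + 1) * C1) with hC2
  have hC20 : 0 < C2 := by positivity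
  set ϑ : ℝ := min 1 (c / (2 * C2)) with hϑ
  have hϑ0 : 0 < ϑ := lt_min one_pos (by positivity)
  have hϑ1 : ϑ ≤ 1 := min_le_left _ _
  have hϑ2 : C2 * ϑ ≤ c / 2 := by
    have : ϑ ≤ c / (2 * C2) := min_le_right _ _
    calc C2 * ϑ ≤ C2 * (c / (2 * C2)) := mul_le_mul_of_nonneg_left this hC20.le
      _ = c / 2 := by field_simp
  refine ⟨c * ϑ / 2, max (max T1 T2) (max T3 3), by positivity,
    fun P hPC h hB hT v hsb hroom hctl => ?_⟩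
  have t1 : T1 ≤ P.T := ((le_max_left _ _).trans (le_max_left _ _)).trans hT
  have t2 : T2 ≤ P.T := ((le_max_right _ _).trans (le_max_left _ _)).trans hT
  have t3 : T3 ≤ P.T := ((le_max_left _ _).trans (le_max_right _ _)).trans hT
  have t4 : 3 ≤ P.T := ((le_max_right _ _).trans (le_max_right _ _)).trans hT
  have hv : 0 < v := hctl.v_pos
  set δ := P.tau v with hδ
  have hδ0 : 0 < δ := lt_of_lt_of_le (Real.exp_pos _) hctl.δ_ge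
  have he3 : Real.exp 1 ≤ 3 := by
    have := Real.exp_one_lt_d9
    linarith
  by_contra hcon
  have hcon' : P.A v < c * ϑ / 2 * (v ^ 2 * δ) := not_le.1 hcon
  -- step 1
  have hlev : 2 ≤ lev δ := by
    have a1 : δ ≤ P.dst := by
      have := hctl.δ_le
      rwa [one_mul] at this
    have a2 : Real.log δ ≤ -P.a0 := by
      rw [Real.log_le_iff_le_exp hδ0]
      exact a1
    have a3 : 2 ≤ FQ Q P.T := h3 P.T t3
    have a4 : (2 : ℝ) ≤ P.a0 := by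
      show (2 : ℝ) ≤ FQ Q P.T ^ 2
      nlinarith only [a3]
    unfold lev
    linarith
  have hsc := h1 P h t1 v δ hctl
  have hinv : lev δ ^ (-(1 : ℝ)) ≤ 1 / 2 := by
    rw [Real.rpow_neg_one, inv_eq_one_div]
    exact one_div_le_one_div_of_le (by norm_num) hlev
  have hD := P.Dv_nonneg h v
  have hL := P.Lamv_nonneg h v
  have hτeq : δ = P.absMv v + P.Dv v + P.Lamv v := P.tau_eq h v
  have hDL : 2 * c * δ ≤ P.Dv v + P.Lamv v := env_lower_aux1 hC0 hδ0.le hinv hsc hτeq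
  -- step 2
  have hM : P.Mv v < c * ϑ / 2 * δ := by
    have a1 : v ^ 2 * P.Mv v < v ^ 2 * (c * ϑ / 2 * δ) := by
      have a0 : P.A v = v ^ 2 * P.Mv v := rfl
      have a2 : v ^ 2 * (c * ϑ / 2 * δ) = c * ϑ / 2 * (v ^ 2 * δ) := by ring
      rw [← a0, a2]
      exact hcon'
    exact lt_of_mul_lt_mul_left a1 (sq_nonneg v)
  have hfv : P.fst v ≤ -c * δ := by
    rw [P.fst_eq, hPC]
    have a1 : 0 ≤ P.η / 4 * (P.tau v + P.d) := by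
      have := P.η_pos
      have := P.d_pos
      positivity
    exact env_lower_aux2 hc0 hϑ0 hϑ1 hδ0 hCQ hL a1 hM hDL
  -- step 3
  have hTpow : Real.exp 1 * P.T ^ 4 ≤ P.T ^ 5 := by
    have : P.T ^ 5 = P.T * P.T ^ 4 := by ring
    rw [this]
    exact mul_le_mul_of_nonneg_right (he3.trans t4) (by positivity)
  have hdot : ∀ r ∈ Icc v (Real.exp 1 * v), |P.fstDot r| ≤ C2 * δ := fun r hr => by
    have hr4 : r * P.T ^ 4 ≤ P.ρ := by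
      calc r * P.T ^ 4 ≤ Real.exp 1 * v * P.T ^ 4 :=
            mul_le_mul_of_nonneg_right hr.2 (by positivity)
        _ = v * (Real.exp 1 * P.T ^ 4) := by ring
        _ ≤ v * P.T ^ 5 := mul_le_mul_of_nonneg_left hTpow hv.le
        _ ≤ P.ρ := hroom
    have hctl' := hctl.dilate zero_le_one hJ hδ0.le hr.1 hr.2 hr4
    have a1 := h2 P h t2 r δ hctl'
    simp only [pow_one] at a1
    have a2 : P.pm r ≤ C1 * δ := a1
    have a3 := P.abs_fstDot_le h r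
    rw [hPC, abs_of_nonneg (by linarith : (0 : ℝ) ≤ CQ)] at a3
    calc |P.fstDot r| ≤ (3 + CQ) * (((m : ℝ) + 1) * P.pm r) := a3
      _ ≤ (3 + CQ) * (((m : ℝ) + 1) * (C1 * δ)) := by
          apply mul_le_mul_of_nonneg_left _ (by linarith)
          exact mul_le_mul_of_nonneg_left a2 (by linarith)
      _ = C2 * δ := by rw [hC2]; ring
  set q : ℝ := Real.exp ϑ * v with hq
  have hvq : v ≤ q := by
    have : 1 ≤ Real.exp ϑ := Real.one_le_exp hϑ0.le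
    exact le_mul_of_one_le_left hv.le this
  have hqe : q ≤ Real.exp 1 * v :=
    mul_le_mul_of_nonneg_right (Real.exp_le_exp.2 hϑ1) hv.le
  have hfr : ∀ r ∈ Icc v q, P.fst r ≤ -(c / 2) * δ := fun r hr => by
    have a1 := env_mv_le (fun r hr => P.hasDerivAt_fst h hr) hv hr.1
      (M := C2 * δ) fun r' hr' => (le_abs_self _).trans (hdot r' ⟨hr'.1, (hr'.2.trans hr.2).trans hqe⟩)
    have a2 : Real.log (r / v) ≤ ϑ := by
      rw [Real.log_le_iff_le_exp (div_pos (lt_of_lt_of_le hv hr.1) hv), div_le_iff₀ hv]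
      exact hr.2
    have a3 : C2 * δ * Real.log (r / v) ≤ C2 * δ * ϑ :=
      mul_le_mul_of_nonneg_left a2 (by positivity)
    have a4 : C2 * δ * ϑ ≤ c / 2 * δ := by
      have : C2 * δ * ϑ = C2 * ϑ * δ := by ring
      rw [this]
      exact mul_le_mul_of_nonneg_right hϑ2 hδ0.le
    linarith only [a1, a3, a4, hfv]
  -- step 4
  have hZ := env_mv_le (fun r hr => P.hasDerivAt_Z h hr) hv hvq
    (M := -(c / 2) * δ * v ^ 2) fun r hr => by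
      have a1 := hfr r hr
      have a2 : v ^ 2 ≤ r ^ 2 := pow_le_pow_left₀ hv.le hr.1 2
      have a3 : P.Zdot r = r ^ 2 * P.fst r := rfl
      rw [a3]
      have a4 : r ^ 2 * P.fst r ≤ r ^ 2 * (-(c / 2) * δ) :=
        mul_le_mul_of_nonneg_left a1 (sq_nonneg r)
      have a5 : 0 ≤ c / 2 * δ := by positivity
      have a6 : v ^ 2 * (c / 2 * δ) ≤ r ^ 2 * (c / 2 * δ) := mul_le_mul_of_nonneg_right a2 a5
      linarith only [a4, a6]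
  have hlogq : Real.log (q / v) = ϑ := by
    rw [hq, mul_div_assoc, div_self hv.ne', mul_one, Real.log_exp]
  rw [hlogq] at hZ
  have hqρ : q ≤ P.ρ := by
    have hT1 : (1 : ℝ) ≤ P.T := by linarith
    have : Real.exp 1 ≤ P.T ^ 5 := by
      have a1 : (1 : ℝ) ≤ P.T ^ 4 := one_le_pow₀ hT1
      calc Real.exp 1 = Real.exp 1 * 1 := (mul_one _).symm
        _ ≤ Real.exp 1 * P.T ^ 4 := mul_le_mul_of_nonneg_left a1 (Real.exp_pos _).le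
        _ ≤ P.T ^ 5 := hTpow
    calc q ≤ Real.exp 1 * v := hqe
      _ = v * Real.exp 1 := mul_comm _ _
      _ ≤ v * P.T ^ 5 := mul_le_mul_of_nonneg_left this hv.le
      _ ≤ P.ρ := hroom
  have hZq := hB.Z_nonneg q (hsb.trans hvq) hqρ
  have hZv := hB.Z_le_A v hsb (hvq.trans hqρ)
  exact env_lower_aux4 hZ hZq hZv hcon'

end Claimed.Agent.R322.Sx
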