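import Claimed.Agent.R322.Sx.Env.C1

/-!
# R322 / Sx / Env / C3 : `env_levels`   [leaf L-Sx-EnvC3]
-/

set_option autoImplicit false
set_option linter.unusedVariables false

namespace Claimed.Agent.R322.Sx

open MeasureTheory Set Metric
open scoped ENNReal NNReal InnerProductSpace

variable {m n Q : ℕ}

theorem PD.a_continuousOn {κ Cg : ℝ} (P : PD m n Q) (h : P.Ok κ Cg) :
    ContinuousOn P.a (Ioc 0 P.ρ) := by
  unfold PD.a
  refine ContinuousOn.log (((continuousOn_id.pow 2)).div (P.I_continuousOn h)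
    fun s hs => (P.I_pos h hs.1).ne') fun s hs => ?_
  have := P.I_pos h hs.1
  have := hs.1
  positivity

theorem rhoT_le_one (Q : ℕ) {T : ℝ} (hT : 1 ≤ T) : rhoT Q T ≤ 1 := by
  rw [rhoT_eq Q (by linarith), Real.exp_le_one_iff]
  have := FQ_nonneg Q T
  have := Real.log_nonneg hT
  linarith

/-- Step 4: the levels.  `I(s)/s² ≤ d_*` on `[s̲, ρ]`; `I(s0) ≥ c s0² d_*`; `a(ρ) > T/2`; the first
crossing of `T/2` exists. -/
theorem env_levels (m n Q : ℕ) (hm : 1 ≤ m) (hQ : 1 ≤ Q) (κ Cg : ℝ) (hκ : 0 < κ) (K CQ : ℝ)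
    (hK : 2 * (m : ℝ) + 100 < K) (hCQ : 1 ≤ CQ) :
    ∃ C T0 : ℝ, 0 < C ∧ ∀ P : PD m n Q, P.K = K → P.CQ = CQ → P.Ok κ Cg → Bank P → T0 ≤ P.T →
      P.s0 < P.sst ∧ P.sst < P.ρ ∧ P.a P.sst = P.T / 2 ∧
      (∀ s, P.s0 ≤ s → s < P.sst → P.a s < P.T / 2) ∧ |P.a P.s0 - P.a0| ≤ C ∧
      (∀ s, P.sb ≤ s → s ≤ P.ρ → P.a0 ≤ P.a s) ∧
      ∀ s ∈ P.path, s ≤ Real.exp (-P.T / (4 * m)) := by
  have hm0 : (0 : ℝ) ≤ m := Nat.cast_nonneg m
  have hK2 : 2 ≤ K := by linarith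
  obtain ⟨C1, T1, hC1, h1⟩ := env_dil m n Q hm hQ κ Cg hκ K CQ hK hCQ
  obtain ⟨T3, hT3, h3⟩ := env_end_rate m Q hQ
  obtain ⟨T4, hT4, h4⟩ := env_a0_rate Q hQ (|Real.log C1| + 1)
  refine ⟨|Real.log C1| + 1, max T1 (max T3 T4), by positivity, fun P hPK hPC h hB hT => ?_⟩
  have t1 : T1 ≤ P.T := (le_max_left _ _).trans hT
  have t3 : T3 ≤ P.T := ((le_max_left _ _).trans (le_max_right _ _)).trans hT
  have t4 : T4 ≤ P.T := ((le_max_right _ _).trans (le_max_right _ _)).trans hT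
  have hT1 : 1 ≤ P.T := hT3.trans t3
  have hPK2 : 2 ≤ P.K := by rw [hPK]; exact hK2
  have hρ := P.ρ_pos h
  have hs0 := P.s0_pos h
  have hend : P.d * P.ρ ^ (-(2 * (m : ℝ) + 4)) < Real.exp (-P.T / 2) := h3 P.T t3
  have ha0 : P.a0 + (|Real.log C1| + 1) < P.T / 2 := h4 P.T t4
  have habs := abs_nonneg (Real.log C1)
  have hdst : Real.exp (-P.T / 2) ≤ P.dst := by
    apply Real.exp_le_exp.2
    show -P.T / 2 ≤ -P.a0
    linarith
  -- the upper bound of the envelope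
  have L6 : ∀ s, P.sb ≤ s → s ≤ P.ρ → P.a0 ≤ P.a s := fun s hsb hsρ => by
    have hs : 0 < s := lt_of_lt_of_le h.sb_pos hsb
    rw [P.le_a_iff h hs]
    show P.I s ≤ s ^ 2 * P.dst
    refine P.I_le h hs hsρ ?_ fun v hv => ?_
    · exact (P.Iend_le h hPK2 hs hsρ).trans
        (mul_le_mul_of_nonneg_left (hend.le.trans hdst) (sq_nonneg s))
    · have hp : 0 ≤ (s / v) ^ P.K := Real.rpow_nonneg (div_nonneg hs.le (hs.le.trans hv.1)) _
      calc (s / v) ^ P.K * P.A v ≤ (s / v) ^ P.K * (v ^ 2 * P.dst) :=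
            mul_le_mul_of_nonneg_left ((P.A_le h v).trans (mul_le_mul_of_nonneg_left
              (h.thr v (hsb.trans hv.1) hv.2) (sq_nonneg v))) hp
        _ = ((s / v) ^ P.K * v ^ 2) * P.dst := by ring
        _ ≤ s ^ 2 * P.dst :=
            mul_le_mul_of_nonneg_right (env_weight_le hs hv.1 hPK2) P.dst_pos.le
  -- the level at the threshold
  have L5up : P.a P.s0 ≤ P.a0 + Real.log C1 := by
    rw [P.a_le_iff h hs0]
    have h5 := h1 P hPK hPC h hB t1 P.s0 h.sb_le h.s0_lt.le (Or.inl rfl) P.s0 le_rfl h.s0_lt.le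
    rw [div_self hs0.ne', Real.one_rpow, mul_one, h.thr_eq] at h5
    have e : Real.exp (-(P.a0 + Real.log C1)) = P.dst / C1 := by
      rw [neg_add, Real.exp_add, Real.exp_neg (Real.log C1), Real.exp_log hC1]
      rfl
    rw [e, ← mul_div_assoc, div_le_iff₀ hC1]
    linarith
  have L5 : |P.a P.s0 - P.a0| ≤ |Real.log C1| + 1 := by
    have := L6 P.s0 h.sb_le h.s0_lt.le
    have := le_abs_self (Real.log C1)
    rw [abs_le]
    constructor <;> linarith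
  have has0 : P.a P.s0 < P.T / 2 := by
    have := le_abs_self (Real.log C1)
    linarith
  -- the level at the outer endpoint
  have haρ : P.T / 2 < P.a P.ρ := by
    by_contra hcon
    have h5 := (P.a_le_iff h hρ _).1 (not_lt.1 hcon)
    rw [← neg_div] at h5
    have h6 : P.I P.ρ ≤ P.ρ ^ 2 * (P.d * P.ρ ^ (-(2 * (m : ℝ) + 4))) := by
      refine P.I_le h hρ le_rfl (P.Iend_le h hPK2 hρ le_rfl) fun v hv => ?_
      have hv' : v = P.ρ := le_antisymm hv.2 hv.1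
      rw [hv', div_self hρ.ne', Real.one_rpow, one_mul]
      refine (P.A_le h P.ρ).trans (mul_le_mul_of_nonneg_left ?_ (sq_nonneg _))
      refine (P.tau_le_total h hρ).trans ?_
      rw [mul_comm]
      refine mul_le_mul_of_nonneg_left ?_ P.d_pos.le
      exact Real.rpow_le_rpow_of_exponent_ge hρ (rhoT_le_one Q hT1) (by linarith)
    have h7 : P.ρ ^ 2 * (P.d * P.ρ ^ (-(2 * (m : ℝ) + 4))) < P.ρ ^ 2 * Real.exp (-P.T / 2) :=
      mul_lt_mul_of_pos_left hend (by positivity)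
    linarith
  -- the first crossing
  have hcont : ContinuousOn P.a (Icc P.s0 P.ρ) :=
    (P.a_continuousOn h).mono fun s hs => ⟨lt_of_lt_of_le hs0 hs.1, hs.2⟩
  have hSet : {s | s ∈ Icc P.s0 P.ρ ∧ P.a s = P.T / 2} = Icc P.s0 P.ρ ∩ P.a ⁻¹' {P.T / 2} := rfl
  have hclosed : IsClosed {s | s ∈ Icc P.s0 P.ρ ∧ P.a s = P.T / 2} := by
    rw [hSet]
    exact hcont.preimage_isClosed_of_isClosed isClosed_Icc isClosed_singleton
  have hne : {s | s ∈ Icc P.s0 P.ρ ∧ P.a s = P.T / 2}.Nonempty := by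
    obtain ⟨r, hr, hr'⟩ := intermediate_value_Icc h.s0_lt.le hcont ⟨has0.le, haρ.le⟩
    exact ⟨r, hr, hr'⟩
  have hbdd : BddBelow {s | s ∈ Icc P.s0 P.ρ ∧ P.a s = P.T / 2} := ⟨P.s0, fun s hs => hs.1.1⟩
  have hmem : P.sst ∈ {s | s ∈ Icc P.s0 P.ρ ∧ P.a s = P.T / 2} := hclosed.csInf_mem hne hbdd
  obtain ⟨⟨m1, m2⟩, m3⟩ := hmem
  have l1 : P.s0 < P.sst := by
    rcases lt_or_eq_of_le m1 with h5 | h5
    · exact h5
    · rw [← h5] at m3
      linarith
  have l2 : P.sst < P.ρ := by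
    rcases lt_or_eq_of_le m2 with h5 | h5
    · exact h5
    · rw [h5] at m3
      linarith
  have l4 : ∀ s, P.s0 ≤ s → s < P.sst → P.a s < P.T / 2 := fun s hs hss => by
    by_contra hcon
    have hsρ : s ≤ P.ρ := hss.le.trans m2
    obtain ⟨r, hr, hr'⟩ := intermediate_value_Icc hs
      (hcont.mono (Icc_subset_Icc le_rfl hsρ)) ⟨has0.le, not_lt.1 hcon⟩
    have : P.sst ≤ r := csInf_le hbdd ⟨⟨hr.1, hr.2.trans hsρ⟩, hr'⟩
    linarith [hr.2]
  refine ⟨l1, l2, m3, l4, L5, L6, fun s hs => ?_⟩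
  -- the scales of the path are small
  have hsp : 0 < s := P.pos_of_path h hs
  have hsρ : s ≤ P.ρ := hs.2.trans m2
  have hale : P.a s ≤ P.T / 2 := by
    rcases lt_or_eq_of_le hs.2 with h6 | h6
    · exact (l4 s hs.1 h6).le
    · rw [h6, m3]
  have hI := (P.a_le_iff h hsp _).1 hale
  rw [← neg_div] at hI
  rcases P.I_cases h hsp hsρ with hc | ⟨t, ht, hc⟩
  · exfalso
    have a1 := P.Iend_le h hPK2 hsp hsρ
    have a3 : s ^ 2 * (P.d * P.ρ ^ (-(2 * (m : ℝ) + 4))) < s ^ 2 * Real.exp (-P.T / 2) :=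
      mul_lt_mul_of_pos_left hend (by positivity)
    rw [hc] at hI
    linarith
  · have ht0 : 0 < t := lt_of_lt_of_le hsp ht.1
    have hp : 0 ≤ (s / t) ^ P.K := Real.rpow_nonneg (div_nonneg hsp.le ht0.le) _
    have h8 : s ^ 2 * Real.exp (-P.T / 2) ≤ s ^ 2 * P.tau t := by
      calc s ^ 2 * Real.exp (-P.T / 2) ≤ (s / t) ^ P.K * P.A t := by rw [← hc]; exact hI
        _ ≤ (s / t) ^ P.K * (t ^ 2 * P.tau t) := mul_le_mul_of_nonneg_left (P.A_le h t) hp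
        _ = ((s / t) ^ P.K * t ^ 2) * P.tau t := by ring
        _ ≤ s ^ 2 * P.tau t :=
            mul_le_mul_of_nonneg_right (env_weight_le hsp ht.1 hPK2) (P.tau_nonneg h t)
    have h9 := le_of_mul_le_mul_left h8 (by positivity)
    exact ht.1.trans (P.small_of_tau_ge h hm (by linarith) ht0 h9)

end Claimed.Agent.R322.Sx
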