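import Claimed.Agent.R322.Sx.Ctl
import Claimed.Agent.R322.Sx.Trunc

/-!
# R322 / Sx / Env / Defs : definitions of the envelope package (AE (5.5), Lemma 5.2) and the shared API

Context: `P : PD m n Q`, `P.Ok κ Cg` (see `Path.lean`).  A dot is `d/d log s`; `P.Adot`, `P.Zdot`,
`P.Zddot` are the explicit logarithmic derivatives (`hasDerivAt_A`, `hasDerivAt_Z`, `hasDerivAt_Zdot`
in `Env/A.lean`).

The package is cut in files so that several provers can work without merge conflicts: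
`Env/Defs` (this file: definitions of helper160 + conversion API, owner helper27), `Env/A` (derivatives,
absorption of the geometric error, bank), `Env/B` (elementary calculus of the envelope), `Env/C2` (`env_lower`),
`Env/C1` (`env_max`, `env_dil`), `Env/C3` (`env_levels`), `Env/C4` (`env_reg`, `env_lip`), `Env.lean` (glue).

API of this file (`h : P.Ok κ Cg`; see also `Trunc.lean`, prefix `cmpl_`):  every kernel is supported in `closedBall 0 3`, where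
`τ` has mass `≤ e^{-T}`;  `τ_v = |M|_v + D_v + Λ_v`;  `|M_v| ≤ |M|_v`;  all the explicit logarithmic derivatives are
bounded by the first polynomial moment `P.pm v = ∫ χ G_v (1 + |u|²) dτ` (which `ctl_poly` with `j = 1` estimates).
The first block of elementary facts was written by helper104 (moved here from `Witness.lean`).
-/

set_option autoImplicit false

namespace Claimed.Agent.R322.Sx

open MeasureTheory Set Metric
open scoped ENNReal NNReal InnerProductSpace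

namespace PD

variable {m n Q : ℕ} (P : PD m n Q)

/-- `L_s(x)`. -/
noncomputable def Lv (s : ℝ) : ℝ := P.S.Lav Q P.χ s P.x

/-- `dA / d log s`. -/
noncomputable def Adot (s : ℝ) : ℝ := 2 * P.A s + s ^ 2 * P.S.intM Q (kerDot P.χ s P.x)

/-- `dZ / d log s = s² (f_*)_s`. -/
noncomputable def Zdot (s : ℝ) : ℝ := s ^ 2 * P.fst s

/-- `d (f_*)_s / d log s`. -/
noncomputable def fstDot (s : ℝ) : ℝ :=
  P.S.intL Q (kerDot P.χ s P.x) - P.CQ * P.S.intLam (kerDot P.χ s P.x)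
    - P.η / 4 * ∫ y, kerDot P.χ s P.x y ∂(P.S.tau Q)

/-- `d² Z / d (log s)²`. -/
noncomputable def Zddot (s : ℝ) : ℝ := 2 * P.Zdot s + s ^ 2 * P.fstDot s

/-- the path `[s0, s_*]`. -/
def path : Set ℝ := Icc P.s0 P.sst

/-- the first polynomial moment `∫ χ G_v (1 + |u|²) dτ`. -/
noncomputable def pm (v : ℝ) : ℝ :=
  ∫ y, Sys.ker P.χ v P.x y * (1 + ‖uu P.x v y‖ ^ 2) ∂(P.S.tau Q)

end PD

variable {m n Q : ℕ}

/-- AE (5.5) and the retained terms of `Ȧ - Ż`. -/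
structure Bank (P : PD m n Q) : Prop where
  Z_nonneg : ∀ s, P.sb ≤ s → s ≤ P.ρ → 0 ≤ P.Z s
  fst_sb : 0 ≤ P.fst P.sb
  A_sb : 0 ≤ P.A P.sb
  Z_le_A : ∀ s, P.sb ≤ s → s ≤ P.ρ → P.Z s ≤ P.A s
  /-- `Ȧ - Ż ≥ s² R_s + C_Q s² Λ_s + (η/8) s² (τ_s + d)` -/
  retained : ∀ s, P.sb ≤ s → s ≤ P.ρ →
    s ^ 2 * P.Rv s + P.CQ * s ^ 2 * P.Lamv s + P.η / 8 * s ^ 2 * (P.tau s + P.d)
      ≤ P.Adot s - P.Zdot s
  /-- `A - Z` is nondecreasing -/
  mono : ∀ s s', P.sb ≤ s → s ≤ s' → s' ≤ P.ρ → P.A s - P.Z s ≤ P.A s' - P.Z s'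
  /-- `Ȧ ≤ 2 A + s² R_s + (η/8) s² (τ_s + d)` -/
  upper : ∀ s, P.sb ≤ s → s ≤ P.ρ →
    P.Adot s ≤ 2 * P.A s + s ^ 2 * P.Rv s + P.η / 8 * s ^ 2 * (P.tau s + P.d)

/-- conclusions of AE Lemma 5.2 (except the weighted scalar estimate). -/
structure EnvOut (P : PD m n Q) (C : ℝ) : Prop where
  s0_lt : P.s0 < P.sst
  sst_lt : P.sst < P.ρ
  a_sst : P.a P.sst = P.T / 2
  a_lt : ∀ s, P.s0 ≤ s → s < P.sst → P.a s < P.T / 2
  a_s0 : |P.a P.s0 - P.a0| ≤ C
  a_ge : ∀ s ∈ P.path, P.a0 - C ≤ P.a s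
  /-- AE (5.6), dilation bound -/
  dil : ∀ s ∈ P.path, ∀ v, s ≤ v → v ≤ P.ρ → v ^ 2 * P.tau v ≤ C * (v / s) ^ P.K * P.I s
  /-- AE (5.7) -/
  reg : ∀ s ∈ P.path, |P.Adot s| + |P.Zdot s| + |P.Zddot s| ≤ C * P.I s
  a_lip : ∀ s ∈ P.path, ∀ s' ∈ P.path, s ≤ s' → |P.a s' - P.a s| ≤ C * Real.log (s' / s)
  ZI_lip : ∀ s ∈ P.path, ∀ s' ∈ P.path, s ≤ s' →
    |P.Zdot s' / P.I s' - P.Zdot s / P.I s| ≤ C * Real.log (s' / s)
  /-- interior room: all polynomial dilations in `a` stay far below `ρ` -/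
  small : ∀ s ∈ P.path, s ≤ Real.exp (-P.T / (4 * m))
  /-- the constant background is negligible: `s² η d ≤ e^{-T/2} I` -/
  bg : ∀ s ∈ P.path, s ^ 2 * P.η * P.d ≤ Real.exp (-P.T / 2) * P.I s

/-! ## Rates -/

theorem FQ_nonneg (Q : ℕ) (T : ℝ) : 0 ≤ FQ Q T := by
  unfold FQ
  exact le_trans (Real.sqrt_nonneg _) (rt_E_ge _ _)

/-- every fixed multiple of `F², F, log T, 1` is eventually `≤ c T`. -/
theorem env_rate (Q : ℕ) (hQ : 1 ≤ Q) (C c : ℝ) (hc : 0 < c) :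
    ∃ T0 : ℝ, 1 ≤ T0 ∧ ∀ T, T0 ≤ T →
      C * (FQ Q T ^ 2 + FQ Q T + Real.log T + 1) ≤ c * T := by
  have hC : 0 < |C| + 1 := by positivity
  have hε : 0 < c / (4 * (|C| + 1)) := by positivity
  have h1 := (FQ_pow_div Q hQ 2).eventually (gt_mem_nhds hε)
  have h2 := (log_pow_div_FQ Q 1).eventually (gt_mem_nhds one_pos)
  have h3 := cmpl_rate_F Q 1
  obtain ⟨T1, hT1⟩ := Filter.eventually_atTop.1 (h1.and (h2.and h3))
  refine ⟨max T1 1, le_max_right _ _, fun T hT => ?_⟩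
  obtain ⟨a1, a2, a3⟩ := hT1 T ((le_max_left _ _).trans hT)
  have hT0 : 0 < T := lt_of_lt_of_le one_pos ((le_max_right _ _).trans hT)
  have hF0 : 0 < FQ Q T := by linarith
  rw [pow_one, div_lt_one hF0] at a2
  rw [div_lt_div_iff₀ hT0 (by positivity)] at a1
  have hFF : FQ Q T ≤ FQ Q T ^ 2 := by nlinarith
  have hsum : FQ Q T ^ 2 + FQ Q T + Real.log T + 1 ≤ 4 * FQ Q T ^ 2 := by nlinarith
  have hnn : 0 ≤ FQ Q T ^ 2 + FQ Q T + Real.log T + 1 := by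
    have := Real.log_nonneg ((le_max_right _ _).trans hT)
    positivity
  calc C * (FQ Q T ^ 2 + FQ Q T + Real.log T + 1)
      ≤ (|C| + 1) * (FQ Q T ^ 2 + FQ Q T + Real.log T + 1) :=
        mul_le_mul_of_nonneg_right (by linarith [le_abs_self C]) hnn
    _ ≤ (|C| + 1) * (4 * FQ Q T ^ 2) := mul_le_mul_of_nonneg_left hsum hC.le
    _ = FQ Q T ^ 2 * (4 * (|C| + 1)) := by ring
    _ ≤ c * T := a1.le

/-- `ρ = exp (-(8 F + 2 log T))`. -/
theorem rhoT_eq (Q : ℕ) {T : ℝ} (hT : 0 < T) :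
    rhoT Q T = Real.exp (-(8 * FQ Q T + 2 * Real.log T)) := by
  rw [← cmpl_log_rhoT Q hT, Real.exp_log (cmpl_rhoT_pos Q hT)]

/-- interior room: `e^{-T/(4m)} T^N ≤ ρ` for large `T`. -/
theorem env_room (m Q N : ℕ) (hm : 1 ≤ m) (hQ : 1 ≤ Q) :
    ∃ T0 : ℝ, 1 ≤ T0 ∧ ∀ T, T0 ≤ T → Real.exp (-T / (4 * m)) * T ^ N ≤ rhoT Q T := by
  have hm0 : (0 : ℝ) < m := by exact_mod_cast hm
  obtain ⟨T0, hT0, h⟩ := env_rate Q hQ ((N : ℝ) + 8) (1 / (4 * m)) (by positivity)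
  refine ⟨T0, hT0, fun T hT => ?_⟩
  have hT1 : 1 ≤ T := hT0.trans hT
  have hTp : 0 < T := by linarith
  have hl := Real.log_nonneg hT1
  have hF := FQ_nonneg Q T
  have e : T ^ N = Real.exp (N * Real.log T) := by
    rw [mul_comm, Real.exp_mul, Real.exp_log hTp, Real.rpow_natCast]
  rw [rhoT_eq Q hTp, e, ← Real.exp_add, Real.exp_le_exp]
  have h1 := h T hT
  have hN : (0 : ℝ) ≤ N := Nat.cast_nonneg N
  have h2 : (N : ℝ) * Real.log T + (8 * FQ Q T + 2 * Real.log T)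
      ≤ ((N : ℝ) + 8) * (FQ Q T ^ 2 + FQ Q T + Real.log T + 1) := by nlinarith [sq_nonneg (FQ Q T)]
  have h3 : -T / (4 * m) = -(1 / (4 * m) * T) := by ring
  rw [h3]
  linarith

/-! ## Elementary facts on the Gaussian averages of a path datum (helper104) -/

theorem PD.ker_nonneg {κ Cg : ℝ} (P : PD m n Q) (h : P.Ok κ Cg) (s : ℝ) (y : E m) :
    0 ≤ Sys.ker P.χ s P.x y :=
  mul_nonneg (h.root.cut.nonneg y) (cmpl_gauss_nonneg m s _)

theorem PD.tau_nonneg {κ Cg : ℝ} (P : PD m n Q) (h : P.Ok κ Cg) (s : ℝ) : 0 ≤ P.tau s :=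
  integral_nonneg fun y => P.ker_nonneg h s y

theorem PD.Dv_nonneg {κ Cg : ℝ} (P : PD m n Q) (h : P.Ok κ Cg) (s : ℝ) : 0 ≤ P.Dv s :=
  integral_nonneg fun q => mul_nonneg (P.ker_nonneg h s q.1) (h.root.hyp.valid.e_nonneg q)

theorem PD.Lamv_nonneg {κ Cg : ℝ} (P : PD m n Q) (h : P.Ok κ Cg) (s : ℝ) : 0 ≤ P.Lamv s :=
  integral_nonneg fun q => mul_nonneg (P.ker_nonneg h s q.1) (h.root.hyp.valid.lam_nonneg q)

theorem PD.Rv_nonneg {κ Cg : ℝ} (P : PD m n Q) (h : P.Ok κ Cg) (s : ℝ) : 0 ≤ P.Rv s :=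
  integral_nonneg fun q => mul_nonneg (P.ker_nonneg h s q.1) (h.root.hyp.valid.B_nonneg q _)

theorem PD.ker_continuous {κ Cg : ℝ} (P : PD m n Q) (h : P.Ok κ Cg) (s : ℝ) :
    Continuous (Sys.ker P.χ s P.x) :=
  (cmpl_chi_continuous h.root).mul
    ((cmpl_continuous_gauss m s).comp (continuous_id.sub continuous_const))

theorem PD.ker_le {κ Cg : ℝ} (P : PD m n Q) (h : P.Ok κ Cg) (s : ℝ) (y : E m) :
    Sys.ker P.χ s P.x y ≤ (2 * Real.pi * s ^ 2) ^ (-(m : ℝ) / 2) := by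
  have h1 := cmpl_gauss_le m s (y - P.x)
  have h2 := cmpl_gauss_nonneg m s (y - P.x)
  calc Sys.ker P.χ s P.x y = P.χ y * gauss m s (y - P.x) := rfl
    _ ≤ 1 * gauss m s (y - P.x) := mul_le_mul_of_nonneg_right (h.root.cut.le_one y) h2
    _ ≤ _ := by rw [one_mul]; exact h1

theorem PD.ker_support {κ Cg : ℝ} (P : PD m n Q) (h : P.Ok κ Cg) (s : ℝ) :
    Function.support (Sys.ker P.χ s P.x) ⊆ closedBall (0 : E m) 3 := by
  intro y hy
  by_contra hcon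
  apply hy
  show P.χ y * _ = 0
  rw [cmpl_chi_zero h.root hcon, zero_mul]

/-- `|M_s| ≤ |M|_s`. -/
theorem PD.abs_Mv_le {κ Cg : ℝ} (P : PD m n Q) (h : P.Ok κ Cg) (s : ℝ) : |P.Mv s| ≤ P.absMv s := by
  have h1 := h.root.hyp.valid.abs_intM_le Q (P.ker_continuous h s).measurable
    (isCompact_closedBall (0 : E m) 3) (cmpl_K_subset h.root) (P.ker_support h s)
    ((2 * Real.pi * s ^ 2) ^ (-(m : ℝ) / 2))
    (fun y => by rw [abs_of_nonneg (P.ker_nonneg h s y)]; exact P.ker_le h s y)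
  have h2 : (∫ y, |Sys.ker P.χ s P.x y| ∂(P.S.absM Q)) = P.absMv s := by
    apply integral_congr_ae
    exact Filter.Eventually.of_forall fun y => abs_of_nonneg (P.ker_nonneg h s y)
  rw [h2] at h1
  exact h1

/-- `M_s ≤ |M|_s`. -/
theorem PD.Mv_le_absMv {κ Cg : ℝ} (P : PD m n Q) (h : P.Ok κ Cg) (s : ℝ) : P.Mv s ≤ P.absMv s :=
  (le_abs_self _).trans (P.abs_Mv_le h s)

/-- `Ż = 2 A - s² D_s - C_Q s² Λ_s - (η/4) s² (τ_s + d)`. -/
theorem PD.Zdot_eq (P : PD m n Q) (s : ℝ) :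
    P.Zdot s = 2 * P.A s - s ^ 2 * P.Dv s - P.CQ * (s ^ 2 * P.Lamv s)
      - P.η / 4 * s ^ 2 * (P.tau s + P.d) := by
  unfold PD.Zdot PD.fst PD.Lp PD.A PD.Mv PD.Dv Sys.Lav Sys.intL Sys.Mav Sys.Dav
  ring

theorem PD.η_pos (P : PD m n Q) : 0 < P.η := Real.exp_pos _

theorem PD.d_pos (P : PD m n Q) : 0 < P.d := Real.exp_pos _

theorem PD.Zdot_le {κ Cg : ℝ} (P : PD m n Q) (h : P.Ok κ Cg) (s : ℝ) :
    P.Zdot s ≤ 2 * P.A s - s ^ 2 * P.Dv s - P.CQ * (s ^ 2 * P.Lamv s) := by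
  rw [P.Zdot_eq]
  have h1 : 0 ≤ P.η / 4 * s ^ 2 * (P.tau s + P.d) :=
    mul_nonneg (mul_nonneg (by have := P.η_pos; positivity) (sq_nonneg s))
      (add_nonneg (P.tau_nonneg h s) P.d_pos.le)
  linarith

theorem PD.s0_pos {κ Cg : ℝ} (P : PD m n Q) (h : P.Ok κ Cg) : 0 < P.s0 :=
  lt_of_lt_of_le h.sb_pos h.sb_le

theorem PD.pos_of_path {κ Cg : ℝ} (P : PD m n Q) (h : P.Ok κ Cg) {s : ℝ} (hs : s ∈ P.path) :
    0 < s := lt_of_lt_of_le (P.s0_pos h) hs.1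

/-! ## Shared API (helper27) -/

theorem PD.ρ_pos {κ Cg : ℝ} (P : PD m n Q) (h : P.Ok κ Cg) : 0 < P.ρ := lt_trans (P.s0_pos h) h.s0_lt

theorem PD.dst_pos (P : PD m n Q) : 0 < P.dst := Real.exp_pos _

theorem PD.η_le_one (P : PD m n Q) : P.η ≤ 1 := by
  unfold PD.η etaT
  rw [Real.exp_le_one_iff]
  have := FQ_nonneg Q P.T
  linarith

theorem PD.Lv_eq (P : PD m n Q) (v : ℝ) : P.Lv v = 2 * P.Mv v - P.Dv v := rfl

theorem PD.fst_eq (P : PD m n Q) (v : ℝ) :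
    P.fst v = 2 * P.Mv v - P.Dv v - P.CQ * P.Lamv v - P.η / 4 * (P.tau v + P.d) := rfl

/-! ### integrability -/

/-- continuous multiples of the cutoff are `τ`-integrable. -/
theorem PD.integrable_chi_mul {κ Cg : ℝ} (P : PD m n Q) (h : P.Ok κ Cg) {g : E m → ℝ}
    (hg : Continuous g) : Integrable (fun y => P.χ y * g y) (P.S.tau Q) := by
  obtain ⟨C, hC⟩ := (isCompact_closedBall (0 : E m) 3).exists_bound_of_continuousOn hg.continuousOn
  have h1 := cmpl_integrable_chi_mul h.root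
    (f := (closedBall (0 : E m) 3).indicator g)
    (hg.measurable.indicator isClosed_closedBall.measurableSet) (max C 0) (fun y => by
      by_cases hy : y ∈ closedBall (0 : E m) 3
      · rw [indicator_of_mem hy]
        exact (hC y hy).trans (le_max_left _ _)
      · rw [indicator_of_notMem hy, abs_zero]
        exact le_max_right _ _)
  refine h1.congr (Filter.Eventually.of_forall fun y => ?_)
  by_cases hy : y ∈ closedBall (0 : E m) 3
  · simp only [indicator_of_mem hy]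
  · simp only [cmpl_chi_zero h.root hy, zero_mul]

/-- continuous multiples of the kernel are `τ`-integrable. -/
theorem PD.integrable_ker_mul {κ Cg : ℝ} (P : PD m n Q) (h : P.Ok κ Cg) (v : ℝ) {g : E m → ℝ}
    (hg : Continuous g) : Integrable (fun y => Sys.ker P.χ v P.x y * g y) (P.S.tau Q) := by
  have hc : Continuous (fun y => gauss m v (y - P.x) * g y) :=
    ((cmpl_continuous_gauss m v).comp (continuous_id.sub continuous_const)).mul hg
  have h1 := P.integrable_chi_mul h hc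
  refine h1.congr (Filter.Eventually.of_forall fun y => ?_)
  show P.χ y * (gauss m v (y - P.x) * g y) = P.χ y * gauss m v (y - P.x) * g y
  ring

theorem PD.integrable_ker {κ Cg : ℝ} (P : PD m n Q) (h : P.Ok κ Cg) (v : ℝ) :
    Integrable (Sys.ker P.χ v P.x) (P.S.tau Q) := by
  have := P.integrable_ker_mul h v (g := fun _ => 1) continuous_const
  simpa using this

/-- splitting `τ = |M| + D + Λ` in integrals. -/
theorem PD.integral_tau (P : PD m n Q) {f : E m → ℝ} (hf : Integrable f (P.S.tau Q)) :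
    ∫ y, f y ∂(P.S.tau Q)
      = (∫ y, f y ∂(P.S.absM Q)) + (∫ y, f y ∂P.S.Dm) + ∫ y, f y ∂P.S.Lm := by
  have h1 : Integrable f (P.S.absM Q + P.S.Dm + P.S.Lm) := hf
  have h2 := integrable_add_measure.1 h1
  have h3 := integrable_add_measure.1 h2.1
  show ∫ y, f y ∂(P.S.absM Q + P.S.Dm + P.S.Lm) = _
  rw [integral_add_measure h2.1 h2.2, integral_add_measure h3.1 h3.2]

theorem uu_continuous {m : ℕ} (x : E m) (v : ℝ) : Continuous (uu x v) := by
  unfold uu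
  fun_prop

/-- a multiple of the kernel by a continuous function: measurable, supported in `closedBall 0 3`, bounded. -/
theorem PD.ker_mul_props {κ Cg : ℝ} (P : PD m n Q) (h : P.Ok κ Cg) (v : ℝ) {g : E m → ℝ}
    (hg : Continuous g) :
    Measurable (fun y => Sys.ker P.χ v P.x y * g y) ∧
      Function.support (fun y => Sys.ker P.χ v P.x y * g y) ⊆ closedBall (0 : E m) 3 ∧
      ∃ C : ℝ, ∀ y, |Sys.ker P.χ v P.x y * g y| ≤ C := by
  have hc : Continuous (fun y => Sys.ker P.χ v P.x y * g y) := (P.ker_continuous h v).mul hg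
  have hs : Function.support (fun y => Sys.ker P.χ v P.x y * g y) ⊆ closedBall (0 : E m) 3 := by
    intro y hy
    apply P.ker_support h v
    intro h0
    exact hy (by simp only [h0, zero_mul])
  refine ⟨hc.measurable, hs, ?_⟩
  obtain ⟨C, hC⟩ := hc.bounded_above_of_compact_support
    (HasCompactSupport.of_support_subset_isCompact (isCompact_closedBall _ _) hs)
  exact ⟨C, fun y => hC y⟩

/-- the three signed/unsigned integrals of a multiple of the kernel are dominated by the `τ`-integral. -/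
theorem PD.abs_comb_le {κ Cg : ℝ} (P : PD m n Q) (h : P.Ok κ Cg) (v : ℝ) {g : E m → ℝ}
    (hg : Continuous g) (c1 c2 c3 c : ℝ) (h1 : |c1| ≤ c) (h2 : |c2| ≤ c) (h3 : |c3| ≤ c) :
    |c1 * P.S.intM Q (fun y => Sys.ker P.χ v P.x y * g y)
        + c2 * P.S.intD (fun y => Sys.ker P.χ v P.x y * g y)
        + c3 * P.S.intLam (fun y => Sys.ker P.χ v P.x y * g y)|
      ≤ c * ∫ y, Sys.ker P.χ v P.x y * |g y| ∂(P.S.tau Q) := by
  obtain ⟨hm', hs, C, hC⟩ := P.ker_mul_props h v hg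
  have hV := h.root.hyp.valid
  have e : ∀ y, |Sys.ker P.χ v P.x y * g y| = Sys.ker P.χ v P.x y * |g y| := fun y => by
    rw [abs_mul, abs_of_nonneg (P.ker_nonneg h v y)]
  have a1 := hV.abs_intM_le Q hm' (isCompact_closedBall (0 : E m) 3) (cmpl_K_subset h.root) hs C hC
  have a2 : |P.S.intD (fun y => Sys.ker P.χ v P.x y * g y)|
      ≤ ∫ y, |Sys.ker P.χ v P.x y * g y| ∂P.S.Dm := by
    rw [hV.intD_eq hm']
    exact abs_integral_le_integral_abs
  have a3 : |P.S.intLam (fun y => Sys.ker P.χ v P.x y * g y)|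
      ≤ ∫ y, |Sys.ker P.χ v P.x y * g y| ∂P.S.Lm := by
    rw [hV.intLam_eq hm']
    exact abs_integral_le_integral_abs
  simp only [e] at a1 a2 a3
  have hi := P.integrable_ker_mul h v hg.abs
  rw [P.integral_tau hi]
  have hc0 : 0 ≤ c := (abs_nonneg _).trans h1
  have n1 : 0 ≤ ∫ y, Sys.ker P.χ v P.x y * |g y| ∂(P.S.absM Q) :=
    integral_nonneg fun y => mul_nonneg (P.ker_nonneg h v y) (abs_nonneg _)
  have n2 : 0 ≤ ∫ y, Sys.ker P.χ v P.x y * |g y| ∂P.S.Dm :=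
    integral_nonneg fun y => mul_nonneg (P.ker_nonneg h v y) (abs_nonneg _)
  have n3 : 0 ≤ ∫ y, Sys.ker P.χ v P.x y * |g y| ∂P.S.Lm :=
    integral_nonneg fun y => mul_nonneg (P.ker_nonneg h v y) (abs_nonneg _)
  have b1 : |c1 * P.S.intM Q (fun y => Sys.ker P.χ v P.x y * g y)|
      ≤ c * ∫ y, Sys.ker P.χ v P.x y * |g y| ∂(P.S.absM Q) := by
    rw [abs_mul]
    exact mul_le_mul h1 a1 (abs_nonneg _) hc0
  have b2 : |c2 * P.S.intD (fun y => Sys.ker P.χ v P.x y * g y)|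
      ≤ c * ∫ y, Sys.ker P.χ v P.x y * |g y| ∂P.S.Dm := by
    rw [abs_mul]
    exact mul_le_mul h2 a2 (abs_nonneg _) hc0
  have b3 : |c3 * P.S.intLam (fun y => Sys.ker P.χ v P.x y * g y)|
      ≤ c * ∫ y, Sys.ker P.χ v P.x y * |g y| ∂P.S.Lm := by
    rw [abs_mul]
    exact mul_le_mul h3 a3 (abs_nonneg _) hc0
  calc _ ≤ |c1 * P.S.intM Q (fun y => Sys.ker P.χ v P.x y * g y)|
        + |c2 * P.S.intD (fun y => Sys.ker P.χ v P.x y * g y)|
        + |c3 * P.S.intLam (fun y => Sys.ker P.χ v P.x y * g y)| := abs_add_three _ _ _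
    _ ≤ _ := by linarith

/-! ### the averages -/

theorem PD.absMv_nonneg {κ Cg : ℝ} (P : PD m n Q) (h : P.Ok κ Cg) (v : ℝ) : 0 ≤ P.absMv v :=
  integral_nonneg fun y => P.ker_nonneg h v y

theorem PD.tau_eq {κ Cg : ℝ} (P : PD m n Q) (h : P.Ok κ Cg) (v : ℝ) :
    P.tau v = P.absMv v + P.Dv v + P.Lamv v := by
  have hV := h.root.hyp.valid
  have hm' := (P.ker_continuous h v).measurable
  show ∫ y, Sys.ker P.χ v P.x y ∂(P.S.tau Q)
    = (∫ y, Sys.ker P.χ v P.x y ∂(P.S.absM Q)) + P.S.intD (Sys.ker P.χ v P.x)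
      + P.S.intLam (Sys.ker P.χ v P.x)
  rw [P.integral_tau (P.integrable_ker h v), hV.intD_eq hm', hV.intLam_eq hm']

theorem PD.abs_Mv_le_tau {κ Cg : ℝ} (P : PD m n Q) (h : P.Ok κ Cg) (v : ℝ) : |P.Mv v| ≤ P.tau v := by
  rw [P.tau_eq h v]
  have := P.abs_Mv_le h v
  have := P.Dv_nonneg h v
  have := P.Lamv_nonneg h v
  linarith

/-- `|A(v)| ≤ v² τ_v`. -/
theorem PD.abs_A_le {κ Cg : ℝ} (P : PD m n Q) (h : P.Ok κ Cg) (v : ℝ) :
    |P.A v| ≤ v ^ 2 * P.tau v := by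
  unfold PD.A
  rw [abs_mul, abs_of_nonneg (sq_nonneg v)]
  exact mul_le_mul_of_nonneg_left (P.abs_Mv_le_tau h v) (sq_nonneg v)

theorem PD.A_le {κ Cg : ℝ} (P : PD m n Q) (h : P.Ok κ Cg) (v : ℝ) : P.A v ≤ v ^ 2 * P.tau v :=
  (le_abs_self _).trans (P.abs_A_le h v)

/-- root mass bound: `τ_v ≤ v^{-m} e^{-T}`. -/
theorem PD.tau_le_total {κ Cg : ℝ} (P : PD m n Q) (h : P.Ok κ Cg) {v : ℝ} (hv : 0 < v) :
    P.tau v ≤ v ^ (-(m : ℝ)) * Real.exp (-P.T) := by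
  have h1 := cmpl_tauav_le_mass h.root hv le_rfl P.x
  refine h1.trans (mul_le_mul_of_nonneg_right ?_ (Real.exp_pos _).le)
  have hm0 : (0 : ℝ) ≤ m := Nat.cast_nonneg m
  have e1 : (2 * Real.pi * v ^ 2) ^ (-(m : ℝ) / 2) ≤ (v ^ 2) ^ (-(m : ℝ) / 2) := by
    apply Real.rpow_le_rpow_of_nonpos (by positivity)
    · have : (1 : ℝ) ≤ 2 * Real.pi := by linarith [Real.pi_gt_three]
      have h0 : 0 ≤ v ^ 2 := by positivity
      nlinarith
    · linarith
  have e2 : (v ^ 2) ^ (-(m : ℝ) / 2) = v ^ (-(m : ℝ)) := by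
    rw [← Real.rpow_natCast v 2, ← Real.rpow_mul hv.le]
    congr 1
    push_cast
    ring
  rw [← e2]
  exact e1

theorem PD.integrable_pm {κ Cg : ℝ} (P : PD m n Q) (h : P.Ok κ Cg) (v : ℝ) :
    Integrable (fun y => Sys.ker P.χ v P.x y * (1 + ‖uu P.x v y‖ ^ 2)) (P.S.tau Q) :=
  P.integrable_ker_mul h v (by have := uu_continuous P.x v; fun_prop)

theorem PD.tau_le_pm {κ Cg : ℝ} (P : PD m n Q) (h : P.Ok κ Cg) (v : ℝ) : P.tau v ≤ P.pm v := by
  refine integral_mono (P.integrable_ker h v) (P.integrable_pm h v) fun y => ?_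
  have h1 := P.ker_nonneg h v y
  have h2 : 0 ≤ ‖uu P.x v y‖ ^ 2 := sq_nonneg _
  show Sys.ker P.χ v P.x y ≤ Sys.ker P.χ v P.x y * (1 + ‖uu P.x v y‖ ^ 2)
  nlinarith

theorem PD.pm_nonneg {κ Cg : ℝ} (P : PD m n Q) (h : P.Ok κ Cg) (v : ℝ) : 0 ≤ P.pm v :=
  (P.tau_nonneg h v).trans (P.tau_le_pm h v)

/-! ### sizes of the logarithmic derivatives -/

/-- `∫ χ G_v | |u|² - m | dτ ≤ (m + 1) pm(v)`. -/
theorem PD.int_abs_kerDot_le {κ Cg : ℝ} (P : PD m n Q) (h : P.Ok κ Cg) (v : ℝ) :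
    ∫ y, Sys.ker P.χ v P.x y * |‖uu P.x v y‖ ^ 2 - m| ∂(P.S.tau Q) ≤ ((m : ℝ) + 1) * P.pm v := by
  unfold PD.pm
  rw [← integral_const_mul]
  refine integral_mono
    (P.integrable_ker_mul h v (by have := uu_continuous P.x v; fun_prop))
    ((P.integrable_pm h v).const_mul _) fun y => ?_
  have h1 := P.ker_nonneg h v y
  have h2 : 0 ≤ ‖uu P.x v y‖ ^ 2 := sq_nonneg _
  have hm0 : (0 : ℝ) ≤ m := Nat.cast_nonneg m
  have h3 : |‖uu P.x v y‖ ^ 2 - m| ≤ ((m : ℝ) + 1) * (1 + ‖uu P.x v y‖ ^ 2) := by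
    rw [abs_le]
    constructor <;> nlinarith
  calc Sys.ker P.χ v P.x y * |‖uu P.x v y‖ ^ 2 - m|
      ≤ Sys.ker P.χ v P.x y * (((m : ℝ) + 1) * (1 + ‖uu P.x v y‖ ^ 2)) :=
        mul_le_mul_of_nonneg_left h3 h1
    _ = _ := by ring

theorem PD.abs_intM_kerDot_le {κ Cg : ℝ} (P : PD m n Q) (h : P.Ok κ Cg) (v : ℝ) :
    |P.S.intM Q (kerDot P.χ v P.x)| ≤ ((m : ℝ) + 1) * P.pm v := by
  have h1 := P.abs_comb_le h v (g := fun y => ‖uu P.x v y‖ ^ 2 - m)
    (by have := uu_continuous P.x v; fun_prop) 1 0 0 1 (by simp) (by simp) (by simp)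
  simp only [one_mul, zero_mul, add_zero] at h1
  exact h1.trans (P.int_abs_kerDot_le h v)

theorem PD.abs_Adot_le {κ Cg : ℝ} (P : PD m n Q) (h : P.Ok κ Cg) (v : ℝ) :
    |P.Adot v| ≤ ((m : ℝ) + 3) * (v ^ 2 * P.pm v) := by
  unfold PD.Adot
  have h1 := P.abs_A_le h v
  have h2 := P.abs_intM_kerDot_le h v
  have h3 := P.tau_le_pm h v
  have hv : 0 ≤ v ^ 2 := sq_nonneg v
  have h4 : |v ^ 2 * P.S.intM Q (kerDot P.χ v P.x)| ≤ v ^ 2 * (((m : ℝ) + 1) * P.pm v) := by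
    rw [abs_mul, abs_of_nonneg hv]
    exact mul_le_mul_of_nonneg_left h2 hv
  have h5 : |2 * P.A v| ≤ 2 * (v ^ 2 * P.pm v) := by
    rw [abs_mul, abs_of_nonneg (by norm_num : (0 : ℝ) ≤ 2)]
    have := mul_le_mul_of_nonneg_left h3 hv
    linarith
  calc _ ≤ |2 * P.A v| + |v ^ 2 * P.S.intM Q (kerDot P.χ v P.x)| := abs_add_le _ _
    _ ≤ _ := by linarith

theorem PD.abs_fst_le {κ Cg : ℝ} (P : PD m n Q) (h : P.Ok κ Cg) (v : ℝ) :
    |P.fst v| ≤ (3 + |P.CQ|) * P.tau v + P.d := by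
  rw [P.fst_eq]
  have h1 := P.abs_Mv_le h v
  have h2 := P.Dv_nonneg h v
  have h3 := P.Lamv_nonneg h v
  have h4 := P.tau_eq h v
  have h5 := P.absMv_nonneg h v
  have h6 := P.η_pos
  have h7 := P.η_le_one
  have h8 := P.d_pos
  have h9 := P.tau_nonneg h v
  have hc : |P.CQ * P.Lamv v| ≤ |P.CQ| * P.tau v := by
    rw [abs_mul, abs_of_nonneg h3]
    exact mul_le_mul_of_nonneg_left (by linarith) (abs_nonneg _)
  have hη : P.η / 4 * (P.tau v + P.d) ≤ P.tau v + P.d := by nlinarith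
  have hη0 : 0 ≤ P.η / 4 * (P.tau v + P.d) := by positivity
  obtain ⟨c1, c2⟩ := abs_le.1 hc
  obtain ⟨m1, m2⟩ := abs_le.1 h1
  rw [abs_le]
  constructor <;> nlinarith

theorem PD.abs_fstDot_le {κ Cg : ℝ} (P : PD m n Q) (h : P.Ok κ Cg) (v : ℝ) :
    |P.fstDot v| ≤ (3 + |P.CQ|) * (((m : ℝ) + 1) * P.pm v) := by
  have hg : Continuous (fun y => ‖uu P.x v y‖ ^ 2 - (m : ℝ)) := by
    have := uu_continuous P.x v
    fun_prop
  have h1 := P.abs_comb_le h v hg 2 (-1) (-P.CQ) (2 + |P.CQ|)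
    (by rw [abs_of_nonneg (by norm_num : (0 : ℝ) ≤ 2)]; linarith [abs_nonneg P.CQ])
    (by rw [abs_neg, abs_one]; linarith [abs_nonneg P.CQ]) (by rw [abs_neg]; linarith)
  have h2 := P.int_abs_kerDot_le h v
  have h3 : |∫ y, kerDot P.χ v P.x y ∂(P.S.tau Q)|
      ≤ ∫ y, Sys.ker P.χ v P.x y * |‖uu P.x v y‖ ^ 2 - m| ∂(P.S.tau Q) := by
    refine abs_integral_le_integral_abs.trans (le_of_eq ?_)
    refine integral_congr_ae (Filter.Eventually.of_forall fun y => ?_)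
    show |Sys.ker P.χ v P.x y * (‖uu P.x v y‖ ^ 2 - m)| = _
    rw [abs_mul, abs_of_nonneg (P.ker_nonneg h v y)]
  have h6 := P.η_pos
  have h7 := P.η_le_one
  have hX : 0 ≤ ∫ y, Sys.ker P.χ v P.x y * |‖uu P.x v y‖ ^ 2 - m| ∂(P.S.tau Q) :=
    integral_nonneg fun y => mul_nonneg (P.ker_nonneg h v y) (abs_nonneg _)
  have e : P.fstDot v = (2 * P.S.intM Q (fun y => Sys.ker P.χ v P.x y * (‖uu P.x v y‖ ^ 2 - m))
        + (-1) * P.S.intD (fun y => Sys.ker P.χ v P.x y * (‖uu P.x v y‖ ^ 2 - m))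
        + (-P.CQ) * P.S.intLam (fun y => Sys.ker P.χ v P.x y * (‖uu P.x v y‖ ^ 2 - m)))
      - P.η / 4 * ∫ y, kerDot P.χ v P.x y ∂(P.S.tau Q) := by
    unfold PD.fstDot Sys.intL
    show 2 * P.S.intM Q (kerDot P.χ v P.x) - P.S.intD (kerDot P.χ v P.x)
      - P.CQ * P.S.intLam (kerDot P.χ v P.x) - _ = 2 * P.S.intM Q (kerDot P.χ v P.x)
        + (-1) * P.S.intD (kerDot P.χ v P.x) + (-P.CQ) * P.S.intLam (kerDot P.χ v P.x) - _
    ring
  rw [e]
  have h8 : |P.η / 4 * ∫ y, kerDot P.χ v P.x y ∂(P.S.tau Q)|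
      ≤ ∫ y, Sys.ker P.χ v P.x y * |‖uu P.x v y‖ ^ 2 - m| ∂(P.S.tau Q) := by
    rw [abs_mul, abs_of_nonneg (by positivity : 0 ≤ P.η / 4)]
    nlinarith [abs_nonneg (∫ y, kerDot P.χ v P.x y ∂(P.S.tau Q))]
  have hc0 := abs_nonneg P.CQ
  calc _ ≤ _ + |P.η / 4 * ∫ y, kerDot P.χ v P.x y ∂(P.S.tau Q)| := abs_sub _ _
    _ ≤ (2 + |P.CQ|) * (∫ y, Sys.ker P.χ v P.x y * |‖uu P.x v y‖ ^ 2 - m| ∂(P.S.tau Q))
        + ∫ y, Sys.ker P.χ v P.x y * |‖uu P.x v y‖ ^ 2 - m| ∂(P.S.tau Q) := add_le_add h1 h8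
    _ = (3 + |P.CQ|) * ∫ y, Sys.ker P.χ v P.x y * |‖uu P.x v y‖ ^ 2 - m| ∂(P.S.tau Q) := by ring
    _ ≤ _ := mul_le_mul_of_nonneg_left h2 (by positivity)

/-! ### charts -/

/-- the standing chart of a path datum, from a mass bound. -/
theorem PD.chart_of_mass {κ Cg : ℝ} (P : PD m n Q) (h : P.Ok κ Cg) {K0 : ℝ}
    (hK : P.S.nu (closedBall (0 : E m) 3) + volume (closedBall (0 : E m) 3) ≤ ENNReal.ofReal K0) :
    Chart P.S P.χ 0 2 1 P.x 1 K0 where
  cut := h.root.cut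
  h_pos := one_pos
  R_pos := two_pos
  le_four := by norm_num
  sub := by
    rw [show (2 : ℝ) + 1 = 3 by norm_num]
    exact cmpl_K_subset h.root
  h1_pos := one_pos
  centre := by
    apply ball_subset_ball'
    have := mem_ball.1 h.x_mem
    linarith
  mass := by
    rw [show (2 : ℝ) + 1 = 3 by norm_num]
    exact hK

/-- the standing chart of a path datum (constant depending on the datum). -/
theorem PD.exists_chart {κ Cg : ℝ} (P : PD m n Q) (h : P.Ok κ Cg) :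
    ∃ K0 : ℝ, Chart P.S P.χ 0 2 1 P.x 1 K0 := by
  have h1 : P.S.nu (closedBall (0 : E m) 3) < ∞ := by
    unfold Sys.nu
    rw [Measure.map_apply measurable_fst isClosed_closedBall.measurableSet]
    have := h.root.hyp.valid.finite_mass _ (isCompact_closedBall (0 : E m) 3) (cmpl_K_subset h.root)
    convert this using 2
    ext q
    simp
  have h2 : volume (closedBall (0 : E m) 3) < ∞ := measure_closedBall_lt_top
  refine ⟨(P.S.nu (closedBall (0 : E m) 3) + volume (closedBall (0 : E m) 3)).toReal,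
    P.chart_of_mass h ?_⟩
  rw [ENNReal.ofReal_toReal (ENNReal.add_lt_top.2 ⟨h1, h2⟩).ne]

/-- the standing chart of a path datum, uniform constant (`= PD.chart` of `Moment.lean`). -/
theorem env_chart (m n Q : ℕ) (κ Cg : ℝ) :
    ∃ K0 T0 : ℝ, ∀ P : PD m n Q, P.Ok κ Cg → T0 ≤ P.T → Chart P.S P.χ 0 2 1 P.x 1 K0 := by
  refine ⟨1 + (2 * Q + 1) * (volume (closedBall (0 : E m) 3)).toReal, 0, fun P h hT =>
    P.chart_of_mass h ?_⟩
  have hR := h.root
  have hV := hR.hyp.valid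
  obtain ⟨V, hVdef⟩ : ∃ V : ℝ, V = (volume (closedBall (0 : E m) 3)).toReal := ⟨_, rfl⟩
  have hV0 : 0 ≤ V := by rw [hVdef]; exact ENNReal.toReal_nonneg
  have hVe : volume (closedBall (0 : E m) 3) = ENNReal.ofReal V := by
    rw [hVdef, ENNReal.ofReal_toReal measure_closedBall_lt_top.ne]
  have h1 : P.S.nu (closedBall (0 : E m) 3)
      ≤ P.S.absM Q (closedBall (0 : E m) 3) + (Q : ℝ≥0∞) * P.S.volS (closedBall (0 : E m) 3) := by
    have := hV.nu_le Q (closedBall (0 : E m) 3)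
    simpa using this
  have h2 : P.S.absM Q (closedBall (0 : E m) 3) ≤ ENNReal.ofReal 1 := by
    refine (ctl_absM_le P.S Q _).trans ((measure_mono (closedBall_subset_ball (by norm_num))).trans
      (hR.hyp.small.trans (ENNReal.ofReal_le_ofReal ?_)))
    exact Real.exp_le_one_iff.mpr (by linarith)
  have h3 : P.S.volS (closedBall (0 : E m) 3) ≤ ENNReal.ofReal (2 * V) := by
    refine (hV.volS_le _).trans ?_
    rw [hVe, ENNReal.ofReal_mul (by norm_num)]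
    simp
  have hQe : (Q : ℝ≥0∞) = ENNReal.ofReal Q := by simp
  rw [← hVdef]
  calc P.S.nu (closedBall (0 : E m) 3) + volume (closedBall (0 : E m) 3)
      ≤ (ENNReal.ofReal 1 + ENNReal.ofReal Q * ENNReal.ofReal (2 * V)) + ENNReal.ofReal V := by
        rw [hVe]
        gcongr
        refine h1.trans ?_
        rw [hQe]
        gcongr
    _ = ENNReal.ofReal (1 + (2 * Q + 1) * V) := by
        rw [← ENNReal.ofReal_mul (by positivity), ← ENNReal.ofReal_add (by norm_num) (by positivity),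
          ← ENNReal.ofReal_add (by positivity) hV0]
        congr 1
        ring

end Claimed.Agent.R322.Sx
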